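import Vale.Agent.Lib.P254U.Final
import Vale.Agent.Lib.P254U.FS.Radon2
import Vale.Agent.Lib.P254U.FS.Asym
import Vale.Agent.Lib.P254U.LM.LocalMax
import Vale.Agent.Lib.P254U.ZP.Main
import Vale.Agent.Lib.P254U.ZP.EllK
import Vale.Agent.Lib.P254U.RV.Rev
import Vale.Agent.Lib.P254U.SY.Main
import Vale.Agent.Lib.P254U.LP.Main
import Vale.Agent.Lib.P254U.CX.Main
import Vale.Agent.Lib.P254U.AS.Main

/-!
# P254: the strong isotropic constant conjecture: classes of bodies, inheritance, the simplex as a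
strict local maximizer, and equivalence with the asymptotic bound `1/e`
-/

open MeasureTheory Set

namespace Vale.Agent.Results.P254.Combined

/-- `K` is a convex body: compact, convex, with nonempty interior. -/
structure IsConvexBody {n : ℕ} (K : Set (Fin n → ℝ)) : Prop where
  compact : IsCompact K
  convex : Convex ℝ K
  interior_nonempty : (interior K).Nonempty

/-- The `i`-th coordinate of the centroid of `K`. -/
noncomputable def centroid {n : ℕ} (K : Set (Fin n → ℝ)) (i : Fin n) : ℝ :=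
  (∫ x in K, x i) / (volume K).toReal

/-- The covariance matrix of the uniform distribution on `K`. -/
noncomputable def covariance {n : ℕ} (K : Set (Fin n → ℝ)) : Matrix (Fin n) (Fin n) ℝ :=
  fun i j => (∫ x in K, (x i - centroid K i) * (x j - centroid K j)) / (volume K).toReal

/-- The isotropic constant `L_K = (det Σ_K / |K|^2)^(1/(2n))`. -/
noncomputable def isotropicConstant {n : ℕ} (K : Set (Fin n → ℝ)) : ℝ :=
  ((covariance K).det / (volume K).toReal ^ 2) ^ (1 / (2 * (n : ℝ)))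

/-- `D` is an `n`-simplex in `ℝ^n`. -/
def IsSimplex {n : ℕ} (D : Set (Fin n → ℝ)) : Prop :=
  ∃ v : Fin (n + 1) → (Fin n → ℝ), AffineIndependent ℝ v ∧ D = convexHull ℝ (range v)

/-- The strong isotropic constant conjecture for the single body `K`: `L_K ≤ L_D` for every
`n`-simplex `D`, with equality only if `K` is a simplex. -/
def Satisfies {n : ℕ} (K : Set (Fin n → ℝ)) : Prop :=
  ∀ D : Set (Fin n → ℝ), IsSimplex D →
    isotropicConstant K ≤ isotropicConstant D ∧
      (isotropicConstant K = isotropicConstant D → IsSimplex K)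

/-- The inequality of the conjecture in dimension `n`. -/
def InequalityInDimension (n : ℕ) : Prop :=
  ∀ K D : Set (Fin n → ℝ), IsConvexBody K → IsSimplex D → isotropicConstant K ≤ isotropicConstant D

/-- `K` is unconditional: it is invariant under all changes of signs of the coordinates. -/
def IsUnconditional {n : ℕ} (K : Set (Fin n → ℝ)) : Prop :=
  ∀ x ∈ K, ∀ ε : Fin n → ℝ, (∀ i, ε i = 1 ∨ ε i = -1) → (fun i => ε i * x i) ∈ K

/-- The free sum `conv (K × {0} ∪ {0} × L)` in `ℝ^(m+k)`. -/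
def freeSum {m k : ℕ} (K : Set (Fin m → ℝ)) (L : Set (Fin k → ℝ)) : Set (Fin (m + k) → ℝ) :=
  convexHull ℝ ((fun a : Fin m → ℝ => (Fin.append a (0 : Fin k → ℝ) : Fin (m + k) → ℝ)) '' K ∪
    (fun b : Fin k → ℝ => (Fin.append (0 : Fin m → ℝ) b : Fin (m + k) → ℝ)) '' L)

/-- The product `K × L` in `ℝ^(m+k)`. -/
def product {m k : ℕ} (K : Set (Fin m → ℝ)) (L : Set (Fin k → ℝ)) : Set (Fin (m + k) → ℝ) :=
  {z | (fun i : Fin m => z (Fin.castAdd k i)) ∈ K ∧ (fun j : Fin k => z (Fin.natAdd m j)) ∈ L}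

/-- The `p`-th power of the `L_p(μ)`-norm of `x_1 f_1 + ... + x_n f_n` (possibly infinite). -/
noncomputable def normPow {n : ℕ} {Ω : Type} [MeasurableSpace Ω] (μ : Measure Ω)
    (f : Ω → (Fin n → ℝ)) (p : ℝ) (x : Fin n → ℝ) : ENNReal :=
  ∫⁻ ω, ENNReal.ofReal (|∑ i, x i * f ω i| ^ p) ∂μ

/-- The corner simplex `{x : x_i ≥ 0, x_1 + ... + x_n ≤ 1}`. -/
def cornerSimplex (n : ℕ) : Set (Fin n → ℝ) := {x | (∀ i, 0 ≤ x i) ∧ ∑ i, x i ≤ 1}

/-- The sum of the squares of the `n + 1` barycentric coordinates with respect to the vertices of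
the corner simplex. -/
def barySq {n : ℕ} (x : Fin n → ℝ) : ℝ := ∑ i, x i ^ 2 + (1 - ∑ i, x i) ^ 2

theorem body {n : ℕ} {K : Set (Fin n → ℝ)} (h : IsConvexBody K) : P254U.ConvBody n K :=
  ⟨h.compact, h.convex, h.interior_nonempty⟩

theorem sat_iff {n : ℕ} {K : Set (Fin n → ℝ)} : Satisfies K ↔ P254U.SIC K := by
  constructor
  · intro h v hv
    exact h _ ⟨v, hv, rfl⟩
  · rintro h D ⟨v, hv, rfl⟩
    exact h v hv

theorem ineq_iff {n : ℕ} (hn : 1 ≤ n) : InequalityInDimension n ↔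
    ∀ K : Set (Fin n → ℝ), P254U.ConvBody n K → P254U.Rat K ≤ 1 := by
  constructor
  · intro h K hK
    obtain ⟨v, hv⟩ : ∃ v : Fin (n + 1) → (Fin n → ℝ), AffineIndependent ℝ v := by
      obtain ⟨b⟩ : Nonempty (AffineBasis (Fin (n + 1)) ℝ (Fin n → ℝ)) :=
        AffineBasis.exists_affineBasis_of_finiteDimensional (by simp)
      exact ⟨b, b.ind⟩
    exact (P254U.isoConst_le_iff hn hK hv).1
      (h K _ ⟨hK.compact, hK.convex, hK.interior_nonempty⟩ ⟨v, hv, rfl⟩)
  · rintro h K _ hK ⟨v, hv, rfl⟩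
    exact (P254U.isoConst_le_iff hn (body hK) hv).2 (h K (body hK))

theorem sat_of_lt {n : ℕ} (hn : 1 ≤ n) {K : Set (Fin n → ℝ)} (hK : IsConvexBody K)
    (h : P254U.Rat K < 1) : Satisfies K := by
  rw [sat_iff]
  exact (P254U.sic_iff hn (body hK)).2 ⟨h.le, fun h3 => absurd h3 h.ne⟩

theorem criterion {n : ℕ} (hn : 1 ≤ n) {K : Set (Fin n → ℝ)} (hK : IsConvexBody K)
    (hsub : K ⊆ cornerSimplex n)
    (hint : 2 * (volume (cornerSimplex n \ K)).toReal ≤
      ((n : ℝ) + 1) * ∫ x in cornerSimplex n \ K, barySq x) : Satisfies K := by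
  rw [sat_iff]
  have hb := body hK
  have hS : cornerSimplex n = P254U.stdS n := rfl
  rw [hS] at hsub hint
  have hcomp : IsCompact (P254U.stdS n) := P254U.stdS_compact n
  have hcont : Continuous (barySq : (Fin n → ℝ) → ℝ) := by
    unfold barySq
    fun_prop
  have hQ : IntegrableOn (barySq : (Fin n → ℝ) → ℝ) (P254U.stdS n \ K) :=
    (hcont.continuousOn.integrableOn_compact hcomp).mono_set sdiff_subset
  have hfin : volume (P254U.stdS n \ K) ≠ ⊤ :=
    ((measure_mono sdiff_subset).trans_lt hcomp.measure_lt_top).ne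
  by_cases hpos : 0 < (volume (P254U.stdS n \ K)).toReal
  · have h2 := P254U.rat_lt_of_integral hn hb hsub hpos (by
      have e : ∫ x in P254U.stdS n \ K, (((n : ℝ) + 1) * P254U.QQ x - 2) =
          (((n : ℝ) + 1) * ∫ x in P254U.stdS n \ K, barySq x)
            - 2 * (volume (P254U.stdS n \ K)).toReal := by
        have e0 : (fun x : Fin n → ℝ => ((n : ℝ) + 1) * P254U.QQ x - 2) =
            fun x => ((n : ℝ) + 1) * barySq x - 2 := rfl
        have hc : IntegrableOn (fun _ : Fin n → ℝ => (2 : ℝ)) (P254U.stdS n \ K) :=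
          integrableOn_const hfin
        rw [e0, integral_sub (hQ.const_mul _) hc, integral_const_mul, setIntegral_const,
          smul_eq_mul, measureReal_def, mul_comm (volume (P254U.stdS n \ K)).toReal 2]
      rw [e]
      linarith)
    exact (P254U.sic_iff hn hb).2 ⟨h2.le, fun h3 => absurd h3 h2.ne⟩
  · have hz : volume (P254U.stdS n \ K) = 0 := by
      by_contra hne
      exact hpos (ENNReal.toReal_pos hne hfin)
    have hKS : K = P254U.stdS n := by
      refine Subset.antisymm hsub fun x hx => ?_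
      by_contra hxK
      have hint : (interior (P254U.stdS n)).Nonempty :=
        hb.interior_nonempty.mono (interior_mono hsub)
      have hcl := (P254U.simp_convex n).closure_interior_eq_closure_of_nonempty_interior hint
      have hx' : x ∈ closure (interior (P254U.stdS n)) := by
        rw [hcl]
        exact subset_closure hx
      have ho : IsOpen Kᶜ := hb.compact.isClosed.isOpen_compl
      obtain ⟨y, hy1, hy2⟩ := mem_closure_iff.1 hx' Kᶜ ho hxK
      have hopen : IsOpen (Kᶜ ∩ interior (P254U.stdS n)) := ho.inter isOpen_interior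
      have hp := hopen.measure_pos volume ⟨y, hy1, hy2⟩
      have hle : volume (Kᶜ ∩ interior (P254U.stdS n)) ≤ volume (P254U.stdS n \ K) :=
        measure_mono fun z hz => ⟨interior_subset hz.2, hz.1⟩
      rw [hz] at hle
      exact absurd hle (not_le.2 hp)
    have hs : P254U.IsSimplex (P254U.stdS n) := by
      obtain ⟨b⟩ : Nonempty (AffineBasis (Fin (n + 1)) ℝ (Fin n → ℝ)) :=
        AffineBasis.exists_affineBasis_of_finiteDimensional (by simp)
      obtain ⟨T, hT⟩ := P254U.simplex_affine n b.ind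
      have h1 : P254U.IsSimplex (T '' P254U.stdS n) := ⟨b, b.ind, hT⟩
      have h2 := h1.affine T.symm
      rw [image_image] at h2
      simpa using h2
    rw [hKS]
    exact P254U.sic_simplex hn hs

theorem asym : (∀ n : ℕ, 1 ≤ n → InequalityInDimension n) ↔
    (∀ ε : ℝ, 0 < ε → ∀ N : ℕ, ∃ d : ℕ, N ≤ d ∧ ∀ K : Set (Fin d → ℝ), IsConvexBody K →
      isotropicConstant K ≤ Real.exp (-1) + ε) := by
  constructor
  · intro h ε hε N
    refine ⟨N + 1, by omega, fun K hK => ?_⟩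
    have h2 := (ineq_iff (by omega)).1 (h (N + 1) (by omega)) K (body hK)
    have h3 := P254U.isoConst_le_exp (by omega) (body hK) h2
    exact h3.trans (by linarith)
  · intro h n hn
    refine (ineq_iff hn).2 fun K hK => ?_
    refine P254U.rat_le_one_of_liminf (fun ε hε N => ?_) hn hK
    obtain ⟨d, hd, hd2⟩ := h ε hε N
    exact ⟨d, hd, fun K' hK' => hd2 K' ⟨hK'.compact, hK'.convex, hK'.interior_nonempty⟩⟩

/-- The main result; see the claim file. -/
theorem result :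
    -- (1) affine images of unconditional bodies, all dimensions
    (∀ (n : ℕ), 1 ≤ n → ∀ K : Set (Fin n → ℝ), IsConvexBody K →
      (∃ T : (Fin n → ℝ) ≃ᵃ[ℝ] (Fin n → ℝ), IsUnconditional (T '' K)) → Satisfies K) ∧
    -- (2) unit balls of `n`-dimensional subspaces of `L_1`, `n ≥ 3`
    (∀ (n : ℕ), 3 ≤ n → ∀ K : Set (Fin n → ℝ), IsConvexBody K →
      ∀ (Ω : Type) [MeasurableSpace Ω] (μ : Measure Ω) [SigmaFinite μ] (f : Ω → (Fin n → ℝ)),
        Measurable f → K = {x | normPow μ f 1 x ≤ 1} → Satisfies K) ∧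
    -- (3) symmetric bodies close to unit balls of subspaces of `L_1`
    (∀ (n : ℕ), 1 ≤ n → ∀ K : Set (Fin n → ℝ), IsConvexBody K → (∀ x ∈ K, -x ∈ K) →
      ∀ (Ω : Type) [MeasurableSpace Ω] (μ : Measure Ω) [SigmaFinite μ] (f : Ω → (Fin n → ℝ)),
        Measurable f → ∀ c : ℝ, 1 ≤ c →
        {x | ENNReal.ofReal c * normPow μ f 1 x ≤ 1} ⊆ K → K ⊆ {x | normPow μ f 1 x ≤ 1} →
        c ^ (4 * n) * (((n : ℝ) + 1) ^ (2 * n + 3) * Real.pi * 4 ^ n) <
          2 * (n.factorial : ℝ) ^ 2 * (Real.pi ^ 4) ^ n → Satisfies K) ∧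
    -- (4) unit balls of `n`-dimensional subspaces of `L_p`, `2 ≤ p ≤ 10`, `n ≥ 3` (`d = 1`), and
    -- symmetric bodies within distance `51/50` of them
    (∀ (n : ℕ), 3 ≤ n → ∀ K : Set (Fin n → ℝ), IsConvexBody K → (∀ x ∈ K, -x ∈ K) →
      ∀ (Ω : Type) [MeasurableSpace Ω] (μ : Measure Ω) [SigmaFinite μ] (f : Ω → (Fin n → ℝ)),
        Measurable f → ∀ p : ℝ, 2 ≤ p → p ≤ 10 → ∀ d : ℝ, 1 ≤ d → d ≤ 51 / 50 →
        {x | ENNReal.ofReal (d ^ p) * normPow μ f p x ≤ 1} ⊆ K → K ⊆ {x | normPow μ f p x ≤ 1} →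
        Satisfies K) ∧
    -- (5) bodies filling a large part of an ellipsoid
    (∀ (n : ℕ), 1 ≤ n → ∀ K : Set (Fin n → ℝ), IsConvexBody K →
      ∀ T : (Fin n → ℝ) ≃ᵃ[ℝ] (Fin n → ℝ), (0 : Fin n → ℝ) ∈ T '' K →
        T '' K ⊆ {x | ∑ i, x i ^ 2 ≤ 1} →
        ((n : ℝ) + 1) ^ (n + 1) < ((n.factorial : ℝ) * (volume (T '' K)).toReal) ^ 2 →
        Satisfies K) ∧
    -- (6) polytopes with at most `n + 2` vertices
    (∀ (n : ℕ), 1 ≤ n → ∀ v : Fin (n + 2) → (Fin n → ℝ),
      (interior (convexHull ℝ (range v))).Nonempty → Satisfies (convexHull ℝ (range v))) ∧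
    -- (7) the simplex is a strict local maximizer, with an explicit neighbourhood
    (∀ (n : ℕ), 1 ≤ n → ∀ K S₁ S₂ : Set (Fin n → ℝ), IsConvexBody K → IsSimplex S₁ →
      IsSimplex S₂ → S₁ ⊆ K → K ⊆ S₂ →
      (volume S₂).toReal ≤
        (1 + 1 / ((n : ℝ) * ((n : ℝ) + 1) ^ 2 * ((n : ℝ) + 2) * ((n : ℝ) + 3))) *
          (volume S₁).toReal →
      Satisfies K) ∧
    -- (8) bodies obtained from a simplex by removing a part far from the centre on average
    (∀ (n : ℕ), 1 ≤ n → ∀ K : Set (Fin n → ℝ), IsConvexBody K → K ⊆ cornerSimplex n →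
      2 * (volume (cornerSimplex n \ K)).toReal ≤
        ((n : ℝ) + 1) * ∫ x in cornerSimplex n \ K, barySq x → Satisfies K) ∧
    -- (9) affine images
    (∀ (n : ℕ) (K : Set (Fin n → ℝ)), IsConvexBody K → Satisfies K →
      ∀ T : (Fin n → ℝ) ≃ᵃ[ℝ] (Fin n → ℝ), Satisfies (T '' K)) ∧
    -- (10) free sums of bodies containing the origin
    (∀ (m k : ℕ), 1 ≤ m → 1 ≤ k → ∀ (K : Set (Fin m → ℝ)) (L : Set (Fin k → ℝ)),
      IsConvexBody K → IsConvexBody L → (0 : Fin m → ℝ) ∈ K → (0 : Fin k → ℝ) ∈ L →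
      Satisfies K → Satisfies L → Satisfies (freeSum K L)) ∧
    -- (11) products
    (∀ (m k : ℕ), 1 ≤ m → 1 ≤ k → ∀ (K : Set (Fin m → ℝ)) (L : Set (Fin k → ℝ)),
      IsConvexBody K → IsConvexBody L → Satisfies K → Satisfies L → Satisfies (product K L)) ∧
    -- (12) generalised bodies of revolution `{(t, y) : a ≤ t ≤ b, y ∈ ρ(t) L}`, `ρ` concave
    (∀ (m : ℕ), 1 ≤ m → ∀ (K : Set (Fin (m + 1) → ℝ)) (L : Set (Fin m → ℝ)),
      IsConvexBody K → IsConvexBody L → (∀ i, centroid L i = 0) →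
      ∀ (a b : ℝ) (ρ : ℝ → ℝ), a < b → ContinuousOn ρ (Icc a b) → ConcaveOn ℝ (Icc a b) ρ →
      (∀ t ∈ Icc a b, 0 ≤ ρ t) →
      (∀ (t : ℝ) (y : Fin m → ℝ), (Fin.cons t y : Fin (m + 1) → ℝ) ∈ K ↔
        t ∈ Icc a b ∧ ∃ z ∈ L, y = ρ t • z) →
      ((∀ D : Set (Fin m → ℝ), IsSimplex D → isotropicConstant L ≤ isotropicConstant D) →
        ∀ D : Set (Fin (m + 1) → ℝ), IsSimplex D → isotropicConstant K ≤ isotropicConstant D) ∧
      ((∀ D : Set (Fin m → ℝ), IsSimplex D → isotropicConstant L < isotropicConstant D) →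
        Satisfies K)) ∧
    -- (13) bodies of revolution in dimension `m + 1 ≥ 3`
    (∀ (m : ℕ), 2 ≤ m → ∀ (K : Set (Fin (m + 1) → ℝ)), IsConvexBody K →
      ∀ (a b : ℝ) (ρ : ℝ → ℝ), a < b → ContinuousOn ρ (Icc a b) → ConcaveOn ℝ (Icc a b) ρ →
      (∀ t ∈ Icc a b, 0 ≤ ρ t) →
      (∀ (t : ℝ) (y : Fin m → ℝ), (Fin.cons t y : Fin (m + 1) → ℝ) ∈ K ↔
        t ∈ Icc a b ∧ ∑ i, y i ^ 2 ≤ ρ t ^ 2) → Satisfies K) ∧
    -- (14) centrally symmetric convex bodies in `ℝ^3`, and those with asymmetry at most `1.007`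
    (∀ K : Set (Fin 3 → ℝ), IsConvexBody K →
      (∃ c : Fin 3 → ℝ, (∀ x ∈ K, (2 : ℝ) • c - x ∈ K) ∨
        (∀ x ∈ K, c - (1000 / 1007 : ℝ) • (x - c) ∈ K)) → Satisfies K) ∧
    -- (15) unit balls of complex norms on `ℂ^2` and `ℂ^3`
    (∀ n : ℕ, n = 4 ∨ n = 6 → ∀ K : Set (Fin n → ℝ), IsConvexBody K →
      ∀ J : Matrix (Fin n) (Fin n) ℝ, J * J = -1 →
        (∀ x ∈ K, ∀ a b : ℝ, a ^ 2 + b ^ 2 = 1 → a • x + b • J.mulVec x ∈ K) → Satisfies K) ∧
    -- (16) the inequality in dimension `n + 1` implies the inequality in dimension `n`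
    (∀ n : ℕ, 1 ≤ n → InequalityInDimension (n + 1) → InequalityInDimension n) ∧
    -- (17) the inequality in all dimensions is equivalent to the asymptotic bound `1/e`
    ((∀ n : ℕ, 1 ≤ n → InequalityInDimension n) ↔
      (∀ ε : ℝ, 0 < ε → ∀ N : ℕ, ∃ d : ℕ, N ≤ d ∧ ∀ K : Set (Fin d → ℝ), IsConvexBody K →
        isotropicConstant K ≤ Real.exp (-1) + ε)) := by
  refine ⟨?_, ?_, ?_, ?_, ?_, ?_, ?_, ?_, ?_, ?_, ?_, ?_, ?_, ?_, ?_, ?_, asym⟩
  · intro n hn K hK hu
    rw [sat_iff]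
    rcases Nat.lt_or_ge n 2 with h2 | h2
    · obtain rfl : n = 1 := by omega
      exact P254U.sic_simplex le_rfl (P254U.sic_one (body hK))
    · intro v hv
      have h := P254U.iso_lt_of_two_le h2 (body hK) hu hv
      exact ⟨h.le, fun he => absurd he h.ne⟩
  · intro n hn K hK Ω _ μ _ f hf hKf
    have hmem : ∀ x, x ∈ K ↔ P254U.PhiP μ f 1 x ≤ 1 := by
      intro x
      rw [hKf]
      exact Iff.rfl
    have hneg : ∀ x ∈ K, -x ∈ K := by
      intro x hx
      rw [hmem, P254U.phi_neg, ← hmem]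
      exact hx
    refine sat_of_lt (by omega) hK (P254U.rat_l1 (by omega) (body hK) hneg μ hf le_rfl
      (fun x hx => (hmem x).1 hx) (fun x hx => ?_) ?_)
    · rw [ENNReal.ofReal_one, one_mul]
      by_contra hlt
      exact hx ((hmem x).2 (not_le.1 hlt).le)
    · rw [one_pow, one_mul]
      exact P254U.num_a hn
  · intro n hn K hK hs Ω _ μ _ f hf c hc h1 h2 hnum
    refine sat_of_lt hn hK (P254U.rat_l1 hn (body hK) hs μ hf hc (fun x hx => h2 hx)
      (fun x hx => ?_) hnum)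
    by_contra hlt
    exact hx (h1 (not_le.1 hlt).le)
  · intro n hn K hK hs Ω _ μ _ f hf p h2 h10 d hd1 hd2 h1 h3
    refine sat_of_lt (by omega) hK (P254U.rat_lp10 hn (body hK) hs μ hf h2 h10 hd1 hd2
      (fun x hx => h3 hx) (fun x hx => ?_))
    by_contra hlt
    exact hx (h1 (not_le.1 hlt).le)
  · intro n hn K hK T h0 hB hV
    obtain ⟨hTK, hR⟩ := P254U.Rat_affine hn (body hK) T
    have h := P254U.rat_lt_of_ball hn hTK h0 hB hV
    rw [hR] at h
    exact sat_of_lt hn hK h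
  · intro n hn v hv
    rw [sat_iff]
    exact P254U.sic_points hn v hv
  · rintro n hn K _ _ hK ⟨v1, hv1, rfl⟩ ⟨v2, hv2, rfl⟩ h12 h23 hvol
    rw [sat_iff]
    exact P254U.local_max hn (body hK) ⟨v1, hv1, rfl⟩ ⟨v2, hv2, rfl⟩ h12 h23 hvol
  · intro n hn K hK hsub hint
    exact criterion hn hK hsub hint
  · intro n K hK hs T
    rw [sat_iff] at hs ⊢
    exact P254U.sic_affine hK.compact hs T
  · intro m k hm hk K L hK hL h0 h0' h1 h2
    rw [sat_iff] at h1 h2 ⊢
    exact P254U.sic_fsum hm hk (body hK) (body hL) h0 h0' h1 h2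
  · intro m k hm hk K L hK hL h1 h2
    rw [sat_iff] at h1 h2 ⊢
    exact P254U.sic_prod hm hk (body hK) (body hL) h1 h2
  · intro m hm K L hK hL hcen a b ρ hab hc hconc hnn hmem
    have hrev : P254U.Revol K L ρ a b :=
      { hN := hm
        bodyK := body hK
        bodyL := body hL
        cenL := hcen
        hab := hab
        cont := hc
        conc := hconc
        nonneg := hnn
        mem := hmem }
    have hle := P254U.revol_le hrev
    obtain ⟨v, hv⟩ : ∃ v : Fin (m + 1) → (Fin m → ℝ), AffineIndependent ℝ v := by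
      obtain ⟨b⟩ : Nonempty (AffineBasis (Fin (m + 1)) ℝ (Fin m → ℝ)) :=
        AffineBasis.exists_affineBasis_of_finiteDimensional (by simp)
      exact ⟨b, b.ind⟩
    refine ⟨?_, ?_⟩
    · rintro h _ ⟨w, hw, rfl⟩
      have h1 : P254U.Rat L ≤ 1 := (P254U.isoConst_le_iff hm (body hL) hv).1 (h _ ⟨v, hv, rfl⟩)
      exact (P254U.isoConst_le_iff (by omega) (body hK) hw).2 (hle.trans h1)
    · intro h
      have h0 := h _ ⟨v, hv, rfl⟩
      have h1 : P254U.Rat L ≤ 1 := (P254U.isoConst_le_iff hm (body hL) hv).1 h0.le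
      have h2 : P254U.Rat L ≠ 1 := fun h3 =>
        h0.ne ((P254U.isoConst_eq_iff hm (body hL) hv).2 h3)
      exact sat_of_lt (by omega) hK (hle.trans_lt (lt_of_le_of_ne h1 h2))
  · intro m hm K hK a b ρ hab hc hconc hnn hmem
    exact sat_of_lt (by omega) hK (P254U.rat_bodyrev hm (body hK) hab hc hconc hnn hmem)
  · rintro K hK ⟨c, hc | hc⟩
    · exact sat_of_lt (by norm_num) hK (P254U.rat_centsym3 (body hK) c hc)
    · exact sat_of_lt (by norm_num) hK (P254U.rat_asym3 (body hK) c hc)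
  · rintro n (rfl | rfl) K hK J hJ hinv
    · exact sat_of_lt (by norm_num) hK (P254U.rat_complex4 (body hK) hJ hinv)
    · exact sat_of_lt (by norm_num) hK (P254U.rat_complex6 (body hK) hJ hinv)
  · intro n hn h
    refine (ineq_iff hn).2 fun K hK => ?_
    obtain ⟨C, hC, -, hR, -⟩ := P254U.exists_cone hn hK
    rw [← hR]
    exact (ineq_iff (by omega)).1 h C hC

end Vale.Agent.Results.P254.Combined
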