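import Vale.Agent.Lib.P254U.Final
import Vale.Agent.Lib.P254U.FS.Radon2
import Vale.Agent.Lib.P254U.FS.Asym

/-!
# P254: the strong isotropic constant conjecture: unconditional bodies, free sums, products,
polytopes with at most `n + 2` vertices, and equivalence with the asymptotic bound `1/e`
-/

open MeasureTheory Set

namespace Vale.Agent.Results.P254.Inheritance

/-- `K` is a convex body: compact, convex, with nonempty interior. -/
structure IsConvexBody {n : ℕ} (K : Set (Fin n → ℝ)) : Prop where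
  compact : IsCompact K
  convex : Convex ℝ K
  interior_nonempty : (interior K).Nonempty

/-- The `i`-th coordinate of the centroid of `K`. -/
noncomputable def centroid {n : ℕ} (K : Set (Fin n → ℝ)) (i : Fin n) : ℝ :=
  (∫ x in K, x i) / (volume K).toReal

/-- The covariance matrix of the uniform distribution on `K`. -/
noncomputable def covariance {n : ℕ} (K : Set (Fin n → ℝ)) : Matrix (Fin n) (Fin n) ℝ :=
  fun i j => (∫ x in K, (x i - centroid K i) * (x j - centroid K j)) / (volume K).toReal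

/-- The isotropic constant `L_K = (det Σ_K / |K|^2)^(1/(2n))`. -/
noncomputable def isotropicConstant {n : ℕ} (K : Set (Fin n → ℝ)) : ℝ :=
  ((covariance K).det / (volume K).toReal ^ 2) ^ (1 / (2 * (n : ℝ)))

/-- `D` is an `n`-simplex in `ℝ^n`. -/
def IsSimplex {n : ℕ} (D : Set (Fin n → ℝ)) : Prop :=
  ∃ v : Fin (n + 1) → (Fin n → ℝ), AffineIndependent ℝ v ∧ D = convexHull ℝ (range v)

/-- The strong isotropic constant conjecture for the single body `K`: `L_K ≤ L_D` for every
`n`-simplex `D`, with equality only if `K` is a simplex. -/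
def Satisfies {n : ℕ} (K : Set (Fin n → ℝ)) : Prop :=
  ∀ D : Set (Fin n → ℝ), IsSimplex D →
    isotropicConstant K ≤ isotropicConstant D ∧
      (isotropicConstant K = isotropicConstant D → IsSimplex K)

/-- `K` is unconditional: it is invariant under all changes of signs of the coordinates. -/
def IsUnconditional {n : ℕ} (K : Set (Fin n → ℝ)) : Prop :=
  ∀ x ∈ K, ∀ ε : Fin n → ℝ, (∀ i, ε i = 1 ∨ ε i = -1) → (fun i => ε i * x i) ∈ K

/-- The free sum `conv (K × {0} ∪ {0} × L)` in `ℝ^(m+k)`. -/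
def freeSum {m k : ℕ} (K : Set (Fin m → ℝ)) (L : Set (Fin k → ℝ)) : Set (Fin (m + k) → ℝ) :=
  convexHull ℝ ((fun a : Fin m → ℝ => (Fin.append a (0 : Fin k → ℝ) : Fin (m + k) → ℝ)) '' K ∪
    (fun b : Fin k → ℝ => (Fin.append (0 : Fin m → ℝ) b : Fin (m + k) → ℝ)) '' L)

/-- The product `K × L` in `ℝ^(m+k)`. -/
def product {m k : ℕ} (K : Set (Fin m → ℝ)) (L : Set (Fin k → ℝ)) : Set (Fin (m + k) → ℝ) :=
  {z | (fun i : Fin m => z (Fin.castAdd k i)) ∈ K ∧ (fun j : Fin k => z (Fin.natAdd m j)) ∈ L}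

theorem body {n : ℕ} {K : Set (Fin n → ℝ)} (h : IsConvexBody K) : P254U.ConvBody n K :=
  ⟨h.compact, h.convex, h.interior_nonempty⟩

theorem sat_iff {n : ℕ} {K : Set (Fin n → ℝ)} : Satisfies K ↔ P254U.SIC K := by
  constructor
  · intro h v hv
    exact h _ ⟨v, hv, rfl⟩
  · rintro h D ⟨v, hv, rfl⟩
    exact h v hv

/-- The main result; see the claim file. -/
theorem result :
    -- (1) affine images of unconditional bodies, all dimensions
    (∀ (n : ℕ), 1 ≤ n → ∀ K : Set (Fin n → ℝ), IsConvexBody K →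
      (∃ T : (Fin n → ℝ) ≃ᵃ[ℝ] (Fin n → ℝ), IsUnconditional (T '' K)) → Satisfies K) ∧
    -- (2) affine images
    (∀ (n : ℕ) (K : Set (Fin n → ℝ)), IsConvexBody K → Satisfies K →
      ∀ T : (Fin n → ℝ) ≃ᵃ[ℝ] (Fin n → ℝ), Satisfies (T '' K)) ∧
    -- (3) free sums of bodies containing the origin
    (∀ (m k : ℕ), 1 ≤ m → 1 ≤ k → ∀ (K : Set (Fin m → ℝ)) (L : Set (Fin k → ℝ)),
      IsConvexBody K → IsConvexBody L → (0 : Fin m → ℝ) ∈ K → (0 : Fin k → ℝ) ∈ L →
      Satisfies K → Satisfies L → Satisfies (freeSum K L)) ∧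
    -- (4) products
    (∀ (m k : ℕ), 1 ≤ m → 1 ≤ k → ∀ (K : Set (Fin m → ℝ)) (L : Set (Fin k → ℝ)),
      IsConvexBody K → IsConvexBody L → Satisfies K → Satisfies L → Satisfies (product K L)) ∧
    -- (5) polytopes with at most `n + 2` vertices
    (∀ (n : ℕ), 1 ≤ n → ∀ v : Fin (n + 2) → (Fin n → ℝ),
      (interior (convexHull ℝ (range v))).Nonempty → Satisfies (convexHull ℝ (range v))) ∧
    -- (6) the inequality in all dimensions is equivalent to the asymptotic bound `1/e`
    ((∀ (n : ℕ), 1 ≤ n → ∀ K D : Set (Fin n → ℝ), IsConvexBody K → IsSimplex D →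
        isotropicConstant K ≤ isotropicConstant D) ↔
      (∀ ε : ℝ, 0 < ε → ∀ N : ℕ, ∃ d : ℕ, N ≤ d ∧ ∀ K : Set (Fin d → ℝ), IsConvexBody K →
        isotropicConstant K ≤ Real.exp (-1) + ε)) := by
  refine ⟨?_, ?_, ?_, ?_, ?_, ?_, ?_⟩
  · intro n hn K hK hu
    rw [sat_iff]
    rcases Nat.lt_or_ge n 2 with h2 | h2
    · obtain rfl : n = 1 := by omega
      exact P254U.sic_simplex le_rfl (P254U.sic_one (body hK))
    · intro v hv
      have h := P254U.iso_lt_of_two_le h2 (body hK) hu hv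
      exact ⟨h.le, fun he => absurd he h.ne⟩
  · intro n K hK hs T
    rw [sat_iff] at hs ⊢
    exact P254U.sic_affine hK.compact hs T
  · intro m k hm hk K L hK hL h0 h0' h1 h2
    rw [sat_iff] at h1 h2 ⊢
    exact P254U.sic_fsum hm hk (body hK) (body hL) h0 h0' h1 h2
  · intro m k hm hk K L hK hL h1 h2
    rw [sat_iff] at h1 h2 ⊢
    exact P254U.sic_prod hm hk (body hK) (body hL) h1 h2
  · intro n hn v hv
    rw [sat_iff]
    exact P254U.sic_points hn v hv
  · intro h ε hε N
    refine ⟨N + 1, by omega, fun K hK => ?_⟩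
    obtain ⟨v, hv⟩ : ∃ v : Fin (N + 1 + 1) → (Fin (N + 1) → ℝ), AffineIndependent ℝ v := by
      obtain ⟨b⟩ : Nonempty (AffineBasis (Fin (N + 1 + 1)) ℝ (Fin (N + 1) → ℝ)) :=
        AffineBasis.exists_affineBasis_of_finiteDimensional (by simp)
      exact ⟨b, b.ind⟩
    have h1 := h (N + 1) (by omega) K _ hK ⟨v, hv, rfl⟩
    have h2 : P254U.Rat K ≤ 1 := (P254U.isoConst_le_iff (by omega) (body hK) hv).1 h1
    have h3 := P254U.isoConst_le_exp (by omega) (body hK) h2
    exact h3.trans (by linarith)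
  · intro h n hn K D hK hD
    obtain ⟨v, hv, rfl⟩ := hD
    have h1 : P254U.Rat K ≤ 1 := by
      refine P254U.rat_le_one_of_liminf (fun ε hε N => ?_) hn (body hK)
      obtain ⟨d, hd, hd2⟩ := h ε hε N
      exact ⟨d, hd, fun K' hK' => hd2 K' ⟨hK'.compact, hK'.convex, hK'.interior_nonempty⟩⟩
    exact (P254U.isoConst_le_iff hn (body hK) hv).2 h1

end Vale.Agent.Results.P254.Inheritance
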