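import Vale.Agent.Lib.P254U.LM.LocalMax

/-!
# P254: the simplex is a strict local maximizer of the isotropic constant in every dimension
-/

open MeasureTheory Set

namespace Vale.Agent.Results.P254.LocalMax

/-- `K` is a convex body: compact, convex, with nonempty interior. -/
structure IsConvexBody {n : ℕ} (K : Set (Fin n → ℝ)) : Prop where
  compact : IsCompact K
  convex : Convex ℝ K
  interior_nonempty : (interior K).Nonempty

/-- The `i`-th coordinate of the centroid of `K`. -/
noncomputable def centroid {n : ℕ} (K : Set (Fin n → ℝ)) (i : Fin n) : ℝ :=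
  (∫ x in K, x i) / (volume K).toReal

/-- The covariance matrix of the uniform distribution on `K`. -/
noncomputable def covariance {n : ℕ} (K : Set (Fin n → ℝ)) : Matrix (Fin n) (Fin n) ℝ :=
  fun i j => (∫ x in K, (x i - centroid K i) * (x j - centroid K j)) / (volume K).toReal

/-- The isotropic constant `L_K = (det Σ_K / |K|^2)^(1/(2n))`. -/
noncomputable def isotropicConstant {n : ℕ} (K : Set (Fin n → ℝ)) : ℝ :=
  ((covariance K).det / (volume K).toReal ^ 2) ^ (1 / (2 * (n : ℝ)))

/-- `D` is an `n`-simplex in `ℝ^n`. -/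
def IsSimplex {n : ℕ} (D : Set (Fin n → ℝ)) : Prop :=
  ∃ v : Fin (n + 1) → (Fin n → ℝ), AffineIndependent ℝ v ∧ D = convexHull ℝ (range v)

/-- The strong isotropic constant conjecture for the single body `K`: `L_K ≤ L_D` for every
`n`-simplex `D`, with equality only if `K` is a simplex. -/
def Satisfies {n : ℕ} (K : Set (Fin n → ℝ)) : Prop :=
  ∀ D : Set (Fin n → ℝ), IsSimplex D →
    isotropicConstant K ≤ isotropicConstant D ∧
      (isotropicConstant K = isotropicConstant D → IsSimplex K)

/-- The corner simplex `{x : x_i ≥ 0, x_1 + ... + x_n ≤ 1}`. -/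
def cornerSimplex (n : ℕ) : Set (Fin n → ℝ) := {x | (∀ i, 0 ≤ x i) ∧ ∑ i, x i ≤ 1}

/-- The sum of the squares of the `n + 1` barycentric coordinates with respect to the vertices of
the corner simplex. -/
def barySq {n : ℕ} (x : Fin n → ℝ) : ℝ := ∑ i, x i ^ 2 + (1 - ∑ i, x i) ^ 2

theorem body {n : ℕ} {K : Set (Fin n → ℝ)} (h : IsConvexBody K) : P254U.ConvBody n K :=
  ⟨h.compact, h.convex, h.interior_nonempty⟩

theorem sat_iff {n : ℕ} {K : Set (Fin n → ℝ)} : Satisfies K ↔ P254U.SIC K := by
  constructor
  · intro h v hv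
    exact h _ ⟨v, hv, rfl⟩
  · rintro h D ⟨v, hv, rfl⟩
    exact h v hv

theorem criterion {n : ℕ} (hn : 1 ≤ n) {K : Set (Fin n → ℝ)} (hK : IsConvexBody K)
    (hsub : K ⊆ cornerSimplex n)
    (hint : 2 * (volume (cornerSimplex n \ K)).toReal ≤
      ((n : ℝ) + 1) * ∫ x in cornerSimplex n \ K, barySq x) : Satisfies K := by
  rw [sat_iff]
  have hb := body hK
  have hS : cornerSimplex n = P254U.stdS n := rfl
  rw [hS] at hsub hint
  have hcomp : IsCompact (P254U.stdS n) := P254U.stdS_compact n
  have hcont : Continuous (barySq : (Fin n → ℝ) → ℝ) := by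
    unfold barySq
    fun_prop
  have hQ : IntegrableOn (barySq : (Fin n → ℝ) → ℝ) (P254U.stdS n \ K) :=
    (hcont.continuousOn.integrableOn_compact hcomp).mono_set sdiff_subset
  have hfin : volume (P254U.stdS n \ K) ≠ ⊤ :=
    ((measure_mono sdiff_subset).trans_lt hcomp.measure_lt_top).ne
  by_cases hpos : 0 < (volume (P254U.stdS n \ K)).toReal
  · have h2 := P254U.rat_lt_of_integral hn hb hsub hpos (by
      have e : ∫ x in P254U.stdS n \ K, (((n : ℝ) + 1) * P254U.QQ x - 2) =
          (((n : ℝ) + 1) * ∫ x in P254U.stdS n \ K, barySq x)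
            - 2 * (volume (P254U.stdS n \ K)).toReal := by
        have e0 : (fun x : Fin n → ℝ => ((n : ℝ) + 1) * P254U.QQ x - 2) =
            fun x => ((n : ℝ) + 1) * barySq x - 2 := rfl
        have hc : IntegrableOn (fun _ : Fin n → ℝ => (2 : ℝ)) (P254U.stdS n \ K) :=
          integrableOn_const hfin
        rw [e0, integral_sub (hQ.const_mul _) hc, integral_const_mul, setIntegral_const,
          smul_eq_mul, measureReal_def, mul_comm (volume (P254U.stdS n \ K)).toReal 2]
      rw [e]
      linarith)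
    exact (P254U.sic_iff hn hb).2 ⟨h2.le, fun h3 => absurd h3 h2.ne⟩
  · have hz : volume (P254U.stdS n \ K) = 0 := by
      by_contra hne
      exact hpos (ENNReal.toReal_pos hne hfin)
    have hKS : K = P254U.stdS n := by
      refine Subset.antisymm hsub fun x hx => ?_
      by_contra hxK
      have hint : (interior (P254U.stdS n)).Nonempty :=
        hb.interior_nonempty.mono (interior_mono hsub)
      have hcl := (P254U.simp_convex n).closure_interior_eq_closure_of_nonempty_interior hint
      have hx' : x ∈ closure (interior (P254U.stdS n)) := by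
        rw [hcl]
        exact subset_closure hx
      have ho : IsOpen Kᶜ := hb.compact.isClosed.isOpen_compl
      obtain ⟨y, hy1, hy2⟩ := mem_closure_iff.1 hx' Kᶜ ho hxK
      have hopen : IsOpen (Kᶜ ∩ interior (P254U.stdS n)) := ho.inter isOpen_interior
      have hp := hopen.measure_pos volume ⟨y, hy1, hy2⟩
      have hle : volume (Kᶜ ∩ interior (P254U.stdS n)) ≤ volume (P254U.stdS n \ K) :=
        measure_mono fun z hz => ⟨interior_subset hz.2, hz.1⟩
      rw [hz] at hle
      exact absurd hle (not_le.2 hp)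
    have hs : P254U.IsSimplex (P254U.stdS n) := by
      obtain ⟨b⟩ : Nonempty (AffineBasis (Fin (n + 1)) ℝ (Fin n → ℝ)) :=
        AffineBasis.exists_affineBasis_of_finiteDimensional (by simp)
      obtain ⟨T, hT⟩ := P254U.simplex_affine n b.ind
      have h1 : P254U.IsSimplex (T '' P254U.stdS n) := ⟨b, b.ind, hT⟩
      have h2 := h1.affine T.symm
      rw [image_image] at h2
      simpa using h2
    rw [hKS]
    exact P254U.sic_simplex hn hs

/-- The main result; see the claim file. -/
theorem result (n : ℕ) (hn : 1 ≤ n) :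
    -- (1) the simplex is a strict local maximizer, with an explicit neighbourhood
    (∀ K S₁ S₂ : Set (Fin n → ℝ), IsConvexBody K → IsSimplex S₁ → IsSimplex S₂ →
      S₁ ⊆ K → K ⊆ S₂ →
      (volume S₂).toReal ≤
        (1 + 1 / ((n : ℝ) * ((n : ℝ) + 1) ^ 2 * ((n : ℝ) + 2) * ((n : ℝ) + 3))) *
          (volume S₁).toReal →
      Satisfies K) ∧
    -- (2) the criterion: the removed part is far from the centre on average
    (∀ K : Set (Fin n → ℝ), IsConvexBody K → K ⊆ cornerSimplex n →
      2 * (volume (cornerSimplex n \ K)).toReal ≤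
        ((n : ℝ) + 1) * ∫ x in cornerSimplex n \ K, barySq x →
      ∀ T : (Fin n → ℝ) ≃ᵃ[ℝ] (Fin n → ℝ), Satisfies (T '' K)) ∧
    -- (3) all bodies between the simplex cut by the ellipsoid `barySq ≤ 2/(n+1)` and the simplex
    (∀ K : Set (Fin n → ℝ), IsConvexBody K → K ⊆ cornerSimplex n →
      (∀ x ∈ cornerSimplex n, barySq x ≤ 2 / ((n : ℝ) + 1) → x ∈ K) →
      ∀ T : (Fin n → ℝ) ≃ᵃ[ℝ] (Fin n → ℝ), Satisfies (T '' K)) := by
  have haff : ∀ K : Set (Fin n → ℝ), IsConvexBody K → Satisfies K →
      ∀ T : (Fin n → ℝ) ≃ᵃ[ℝ] (Fin n → ℝ), Satisfies (T '' K) := by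
    intro K hK hs T
    rw [sat_iff] at hs ⊢
    exact P254U.sic_affine hK.compact hs T
  refine ⟨?_, ?_, ?_⟩
  · rintro K _ _ hK ⟨v1, hv1, rfl⟩ ⟨v2, hv2, rfl⟩ h12 h23 hvol
    rw [sat_iff]
    exact P254U.local_max hn (body hK) ⟨v1, hv1, rfl⟩ ⟨v2, hv2, rfl⟩ h12 h23 hvol
  · intro K hK hsub hint T
    exact haff K hK (criterion hn hK hsub hint) T
  · intro K hK hsub hQ T
    refine haff K hK (criterion hn hK hsub ?_) T
    have hn' : (0 : ℝ) < (n : ℝ) + 1 := by positivity
    have hcomp : IsCompact (cornerSimplex n) := P254U.stdS_compact n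
    have hcont : Continuous (barySq : (Fin n → ℝ) → ℝ) := by
      unfold barySq
      fun_prop
    have hQi : IntegrableOn (barySq : (Fin n → ℝ) → ℝ) (cornerSimplex n \ K) :=
      (hcont.continuousOn.integrableOn_compact hcomp).mono_set sdiff_subset
    have hfin : volume (cornerSimplex n \ K) ≠ ⊤ :=
      ((measure_mono sdiff_subset).trans_lt hcomp.measure_lt_top).ne
    have hm : MeasurableSet (cornerSimplex n \ K) :=
      hcomp.measurableSet.diff hK.compact.measurableSet
    have h1 : ∫ x in cornerSimplex n \ K, (2 / ((n : ℝ) + 1)) ≤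
        ∫ x in cornerSimplex n \ K, barySq x := by
      refine setIntegral_mono_on (integrableOn_const hfin) hQi hm fun x hx => ?_
      by_contra hlt
      exact hx.2 (hQ x hx.1 (not_le.1 hlt).le)
    rw [setIntegral_const, smul_eq_mul, measureReal_def] at h1
    have h2 := mul_le_mul_of_nonneg_left h1 hn'.le
    have h3 : ((n : ℝ) + 1) * ((volume (cornerSimplex n \ K)).toReal * (2 / ((n : ℝ) + 1))) =
        2 * (volume (cornerSimplex n \ K)).toReal := by
      field_simp
    linarith

end Vale.Agent.Results.P254.LocalMax
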