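import Vale.Agent.Lib.P254U.ZP.Main
import Vale.Agent.Lib.P254U.ZP.EllK
import Vale.Agent.Lib.P254U.RV.Rev
import Vale.Agent.Lib.P254U.SY.Main
import Vale.Agent.Lib.P254U.LP.Main
import Vale.Agent.Lib.P254U.CX.Main
import Vale.Agent.Lib.P254U.AS.Main
import Vale.Agent.Results.P254.LocalMax
import Vale.Agent.Results.P254.Inheritance

/-!
# P254: the strong isotropic constant conjecture, all partial results in one theorem

Convex bodies are compact convex sets with nonempty interior in `ℝⁿ = (Fin n → ℝ)`, `volume` is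
Lebesgue measure; the covariance matrix is that of the conditional probability `volume[|K]` (the
uniform distribution on `K`); simplices are the convex hulls of affine bases.
-/

open MeasureTheory Set ProbabilityTheory

namespace Vale.Agent.Results.P254.StrongConstant

/-- A convex body in `ℝⁿ`: a compact convex set with nonempty interior. -/
structure Body (n : ℕ) where
  set : Set (Fin n → ℝ)
  isCompact : IsCompact set
  convex : Convex ℝ set
  interior_nonempty : (interior set).Nonempty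

/-- The covariance matrix `Σ_K` of the uniform probability measure `volume[|K]` on `K`. -/
noncomputable def covMatrix {n : ℕ} (K : Set (Fin n → ℝ)) : Matrix (Fin n) (Fin n) ℝ :=
  Matrix.of fun i j => cov[fun x : Fin n → ℝ => x i, fun x : Fin n → ℝ => x j; volume[|K]]

/-- The isotropic constant `L_K = (det Σ_K / |K|²)^(1/(2n))`. -/
noncomputable def isoConst {n : ℕ} (K : Set (Fin n → ℝ)) : ℝ :=
  ((covMatrix K).det / volume.real K ^ 2) ^ (1 / (2 * (n : ℝ)))

/-- The `n`-simplex spanned by `n + 1` affinely independent points of `ℝⁿ`. -/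
def hull {n : ℕ} (b : AffineBasis (Fin (n + 1)) ℝ (Fin n → ℝ)) : Set (Fin n → ℝ) :=
  convexHull ℝ (range b)

/-- `K` is an `n`-simplex in `ℝⁿ`. -/
def IsSimplex {n : ℕ} (K : Set (Fin n → ℝ)) : Prop :=
  ∃ b : AffineBasis (Fin (n + 1)) ℝ (Fin n → ℝ), K = hull b

/-- The number `L_{Δ_n} = (n!² / ((n+1)^(n+1) (n+2)^n))^(1/(2n))`. -/
noncomputable def simplexConst (n : ℕ) : ℝ :=
  ((n.factorial : ℝ) ^ 2 / (((n : ℝ) + 1) ^ (n + 1) * ((n : ℝ) + 2) ^ n)) ^ (1 / (2 * (n : ℝ)))

/-- The statement of Q1 for the single body `K ⊆ ℝⁿ`: `L_K ≤ L_{Δ_n}`, with equality only if `K`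
is a simplex. (That `L_{Δ_n}` is the isotropic constant of every simplex is part (0) below.) -/
def Q1For {n : ℕ} (K : Set (Fin n → ℝ)) : Prop :=
  isoConst K ≤ simplexConst n ∧ (isoConst K = simplexConst n → IsSimplex K)

/-- `K` is unconditional with respect to some centre `c` and some basis `b` of `ℝⁿ`: membership of
a point in `K` depends only on the absolute values of its coordinates. -/
def IsUnconditional {n : ℕ} (K : Set (Fin n → ℝ)) : Prop :=
  ∃ (c : Fin n → ℝ) (b : Module.Basis (Fin n) ℝ (Fin n → ℝ)), ∀ x ∈ K, ∀ y : Fin n → ℝ,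
    (∀ i, |b.repr (y - c) i| = |b.repr (x - c) i|) → y ∈ K

/-- `K` is, in coordinates, the unit ball of the subspace of `L_p(μ)` spanned by `f_1, ..., f_n`:
`K = {x : ‖x_1 f_1 + ... + x_n f_n‖_p ≤ 1}`, `μ` σ-finite. (If `K` is compact, the `f_i` are linearly
independent, so the subspace is `n`-dimensional.) -/
def IsLpBall {n : ℕ} (p : ENNReal) (K : Set (Fin n → ℝ)) : Prop :=
  ∃ (Ω : Type) (_ : MeasurableSpace Ω) (μ : Measure Ω) (_ : SigmaFinite μ) (f : Fin n → Ω → ℝ),
    (∀ i, MemLp (f i) p μ) ∧ K = {x | eLpNorm (fun ω => ∑ i, x i * f i ω) p μ ≤ 1}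

/-- `K = -K` and `c⁻¹ B ⊆ K ⊆ B` for the unit ball `B` of a subspace of an `L_1(μ)`, for some `c ≥ 1`
with `c^(4n) (n+1)^(2n+3) π 4^n < 2 (n!)² π^(4n)`. -/
def IsNearL1Ball {n : ℕ} (K : Set (Fin n → ℝ)) : Prop :=
  (∀ x ∈ K, -x ∈ K) ∧ ∃ (c : ℝ) (B : Set (Fin n → ℝ)), 1 ≤ c ∧
    c ^ (4 * n) * (((n : ℝ) + 1) ^ (2 * n + 3) * Real.pi * 4 ^ n) <
      2 * (n.factorial : ℝ) ^ 2 * (Real.pi ^ 4) ^ n ∧
    IsLpBall 1 B ∧ K ⊆ B ∧ ∀ x ∈ B, c⁻¹ • x ∈ K

/-- `K = -K` and `(50/51) B ⊆ K ⊆ B` for the unit ball `B` of a subspace of an `L_p(μ)`,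
`2 ≤ p ≤ 10`. -/
def IsNearLpBall {n : ℕ} (K : Set (Fin n → ℝ)) : Prop :=
  (∀ x ∈ K, -x ∈ K) ∧ ∃ (p : ℝ) (B : Set (Fin n → ℝ)), 2 ≤ p ∧ p ≤ 10 ∧
    IsLpBall (ENNReal.ofReal p) B ∧ K ⊆ B ∧ ∀ x ∈ B, (50 / 51 : ℝ) • x ∈ K

/-- `K` lies in an ellipsoid `{x : |T (x - c)|² ≤ 1}` with centre `c ∈ K` and fills a large part of
it: `(n + 1)^(n + 1) < (n! |T (K - c)|)²`. -/
def FillsEllipsoid {n : ℕ} (K : Set (Fin n → ℝ)) : Prop :=
  ∃ (T : (Fin n → ℝ) ≃ₗ[ℝ] (Fin n → ℝ)) (c : Fin n → ℝ), c ∈ K ∧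
    (∀ x ∈ K, ∑ i, T (x - c) i ^ 2 ≤ 1) ∧
    ((n : ℝ) + 1) ^ (n + 1) < ((n.factorial : ℝ) * volume.real ((fun x => T (x - c)) '' K)) ^ 2

/-- `K` is centrally symmetric with respect to some point `c`. -/
def IsCentrallySymmetric {n : ℕ} (K : Set (Fin n → ℝ)) : Prop :=
  ∃ c : Fin n → ℝ, ∀ x ∈ K, (2 : ℝ) • c - x ∈ K

/-- The Minkowski asymmetry of `K` is at most `1.007`: `c - (1000/1007) (K - c) ⊆ K` for some `c`. (It
is `1` for centrally symmetric bodies.) -/
def IsNearlySymmetric {n : ℕ} (K : Set (Fin n → ℝ)) : Prop :=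
  ∃ c : Fin n → ℝ, ∀ x ∈ K, c - (1000 / 1007 : ℝ) • (x - c) ∈ K

/-- `K` is the unit ball of a norm that is complex linear for some linear complex structure `J` of
`ℝⁿ` (`J² = -1`): `K` is invariant under `x ↦ a x + b J x`, `a² + b² = 1`. -/
def IsComplexBall {n : ℕ} (K : Set (Fin n → ℝ)) : Prop :=
  ∃ J : Matrix (Fin n) (Fin n) ℝ, J * J = -1 ∧
    ∀ x ∈ K, ∀ a b : ℝ, a ^ 2 + b ^ 2 = 1 → a • x + b • J.mulVec x ∈ K

/-- `K ⊆ ℝ^(n+1)` is stacked over `L ⊆ ℝⁿ`: the centroid of `L` is the origin, and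
`K = {(t, y) : a ≤ t ≤ b, y ∈ ρ(t) L}` for an interval `[a, b]` and a nonnegative, continuous and
concave function `ρ` on it. (For a Euclidean ball `L`, the body `K` is a body of revolution.) -/
def IsStackedOver {n : ℕ} (L : Set (Fin n → ℝ)) (K : Set (Fin (n + 1) → ℝ)) : Prop :=
  (∀ i, ∫ y in L, y i = 0) ∧ ∃ (a b : ℝ) (ρ : ℝ → ℝ), a < b ∧ ContinuousOn ρ (Icc a b) ∧
    ConcaveOn ℝ (Icc a b) ρ ∧ (∀ t ∈ Icc a b, 0 ≤ ρ t) ∧
    K = {x | x 0 ∈ Icc a b ∧ ∃ y ∈ L, ∀ i : Fin n, x i.succ = ρ (x 0) * y i}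

/-- `K` is the convex hull of at most `n + 2` points. -/
def HasFewVertices {n : ℕ} (K : Set (Fin n → ℝ)) : Prop :=
  ∃ s : Finset (Fin n → ℝ), s.card ≤ n + 2 ∧ K = convexHull ℝ (s : Set (Fin n → ℝ))

/-- `K` lies between two simplices of nearly equal volume:
`S ⊆ K ⊆ S'`, `|S'| ≤ (1 + 1 / (n (n+1)² (n+2) (n+3))) |S|`. -/
def IsNearSimplex {n : ℕ} (K : Set (Fin n → ℝ)) : Prop :=
  ∃ b b' : AffineBasis (Fin (n + 1)) ℝ (Fin n → ℝ), hull b ⊆ K ∧ K ⊆ hull b' ∧
    volume.real (hull b') ≤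
      (1 + 1 / ((n : ℝ) * ((n : ℝ) + 1) ^ 2 * ((n : ℝ) + 2) * ((n : ℝ) + 3))) *
        volume.real (hull b)

/-- The sum of the squares of the `n + 1` barycentric coordinates of `x`. -/
noncomputable def barySq {n : ℕ} (b : AffineBasis (Fin (n + 1)) ℝ (Fin n → ℝ)) (x : Fin n → ℝ) :
    ℝ :=
  ∑ i, b.coord i x ^ 2

/-- `K` arises from a simplex by removing a set on which the average of `barySq` is at least
`2 / (n + 1)`. -/
def IsCutSimplex {n : ℕ} (K : Set (Fin n → ℝ)) : Prop :=
  ∃ b : AffineBasis (Fin (n + 1)) ℝ (Fin n → ℝ), K ⊆ hull b ∧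
    2 * volume.real (hull b \ K) ≤ ((n : ℝ) + 1) * ∫ x in hull b \ K, barySq b x

/-- `K` lies between a simplex cut by the ellipsoid `barySq ≤ 2 / (n + 1)` and the simplex. -/
def ContainsCore {n : ℕ} (K : Set (Fin n → ℝ)) : Prop :=
  ∃ b : AffineBasis (Fin (n + 1)) ℝ (Fin n → ℝ), K ⊆ hull b ∧
    ∀ x ∈ hull b, barySq b x ≤ 2 / ((n : ℝ) + 1) → x ∈ K

/-- `M` is the image of `K` under the invertible affine map `x ↦ T x + c`. -/
def IsAffineImage {n : ℕ} (K M : Set (Fin n → ℝ)) : Prop :=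
  ∃ (T : (Fin n → ℝ) ≃ₗ[ℝ] (Fin n → ℝ)) (c : Fin n → ℝ), M = (fun x => T x + c) '' K

/-- The first `m` coordinates of a point of `ℝ^(m+k)`. -/
def left {m k : ℕ} (z : Fin (m + k) → ℝ) : Fin m → ℝ := fun i => z (Fin.castAdd k i)

/-- The last `k` coordinates of a point of `ℝ^(m+k)`. -/
def right {m k : ℕ} (z : Fin (m + k) → ℝ) : Fin k → ℝ := fun j => z (Fin.natAdd m j)

/-- The product `K × L` in `ℝ^(m+k)`. -/
def product {m k : ℕ} (K : Set (Fin m → ℝ)) (L : Set (Fin k → ℝ)) : Set (Fin (m + k) → ℝ) :=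
  {z | left z ∈ K ∧ right z ∈ L}

/-- The free sum: the convex hull of `K × {0}` and `{0} × L` in `ℝ^(m+k)`. -/
def freeSum {m k : ℕ} (K : Set (Fin m → ℝ)) (L : Set (Fin k → ℝ)) : Set (Fin (m + k) → ℝ) :=
  convexHull ℝ (product K {0} ∪ product {0} L)

private abbrev E (n : ℕ) : Type := Fin n → ℝ

private noncomputable def phi (n : ℕ) : E n ≃L[ℝ] (Fin n → ℝ) := ContinuousLinearEquiv.refl ℝ _

private theorem phi_apply {n : ℕ} (x : E n) (i : Fin n) : phi n x i = x i := rfl

private theorem phi_mp (n : ℕ) : MeasurePreserving (phi n) volume volume :=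
  MeasurePreserving.id _

private theorem phi_emb (n : ℕ) : MeasurableEmbedding (phi n) :=
  (phi n).toHomeomorph.measurableEmbedding

private theorem int_phi {n : ℕ} (K : Set (E n)) (g : (Fin n → ℝ) → ℝ) :
    ∫ y in phi n '' K, g y = ∫ x in K, g (phi n x) :=
  (phi_mp n).setIntegral_image_emb (phi_emb n) g K

private theorem vol_phi {n : ℕ} (K : Set (E n)) : volume (phi n '' K) = volume K := by
  have h := (phi_mp n).measure_preimage_emb (phi_emb n) (phi n '' K)
  rw [preimage_image_eq _ (phi n).injective] at h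
  exact h.symm

private theorem cond_int {n : ℕ} (K : Set (E n)) (f : E n → ℝ) :
    ∫ x, f x ∂(volume[|K]) = (∫ x in K, f x) / (volume K).toReal := by
  rw [ProbabilityTheory.cond, integral_smul_measure, ENNReal.toReal_inv, smul_eq_mul, div_eq_inv_mul]

private theorem iso_phi {n : ℕ} (K : Set (E n)) : isoConst K = P254U.isoConst (phi n '' K) := by
  have hc : covMatrix K = P254U.covM (phi n '' K) := by
    ext i j
    show cov[fun x : E n => x i, fun x : E n => x j; volume[|K]] = _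
    unfold covariance P254U.covM P254U.cen
    simp only [cond_int, int_phi, vol_phi, phi_apply]
  unfold isoConst P254U.isoConst
  rw [hc, vol_phi]
  rfl

private theorem image_hull {n : ℕ} (s : Set (E n)) :
    phi n '' convexHull ℝ s = convexHull ℝ (phi n '' s) :=
  LinearMap.image_convexHull ((phi n).toLinearEquiv : E n →ₗ[ℝ] (Fin n → ℝ)) s

private theorem simp_phi {n : ℕ} (K : Set (E n)) : IsSimplex K ↔ P254U.IsSimplex (phi n '' K) := by
  constructor
  · rintro ⟨b, rfl⟩
    refine ⟨phi n ∘ b, ?_, ?_⟩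
    · exact ((phi n).toLinearEquiv.toAffineEquiv.affineIndependent_iff).2 b.ind
    · unfold hull
      rw [image_hull, range_comp]
  · rintro ⟨v, hv, h⟩
    have hi : AffineIndependent ℝ ((phi n).symm ∘ v) :=
      ((phi n).symm.toLinearEquiv.toAffineEquiv.affineIndependent_iff).2 hv
    refine ⟨⟨(phi n).symm ∘ v, hi, ?_⟩, ?_⟩
    · exact hi.affineSpan_eq_top_iff_card_eq_finrank_add_one.2 (by simp)
    · apply (image_injective.2 (phi n).injective)
      unfold hull
      rw [h, image_hull, ← range_comp]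
      congr 2

private theorem sic_phi {n : ℕ} (hn : 1 ≤ n) (K : Set (E n)) : Q1For K ↔ P254U.SIC (phi n '' K) := by
  have hs : ∀ v : Fin (n + 1) → (Fin n → ℝ), AffineIndependent ℝ v →
      P254U.isoConst (convexHull ℝ (range v)) = simplexConst n := fun v hv =>
    P254U.isoConst_simplex n hn hv
  unfold Q1For
  rw [iso_phi, simp_phi]
  constructor
  · rintro h v hv
    rw [hs v hv]
    exact h
  · intro h
    obtain ⟨b⟩ : Nonempty (AffineBasis (Fin (n + 1)) ℝ (Fin n → ℝ)) :=
      AffineBasis.exists_affineBasis_of_finiteDimensional (by simp)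
    have h1 := h b b.ind
    rwa [hs b b.ind] at h1

private theorem body {n : ℕ} {K : Set (E n)} (h1 : IsCompact K) (h2 : Convex ℝ K)
    (h3 : (interior K).Nonempty) : P254U.ConvBody n (phi n '' K) := by
  have hc : Convex ℝ (phi n '' K) :=
    h2.linear_image ((phi n).toLinearEquiv : E n →ₗ[ℝ] (Fin n → ℝ))
  refine ⟨h1.image (phi n).continuous, hc, ?_⟩
  obtain ⟨x, hx⟩ := h3
  have := ((phi n).toHomeomorph.image_interior K)
  refine ⟨phi n x, ?_⟩
  have h4 : phi n x ∈ phi n '' interior K := ⟨x, hx, rfl⟩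
  have h5 : phi n '' interior K = interior (phi n '' K) := this
  rwa [h5] at h4

private theorem uncond_phi {n : ℕ} {K : Set (E n)} (h : IsUnconditional K) :
    ∃ T : (Fin n → ℝ) ≃ᵃ[ℝ] (Fin n → ℝ), P254U.Uncond (T '' (phi n '' K)) := by
  obtain ⟨c, b, h⟩ := h
  let T : (Fin n → ℝ) ≃ᵃ[ℝ] (Fin n → ℝ) :=
    ((phi n).symm.toLinearEquiv.toAffineEquiv.trans
      (AffineEquiv.constVAdd ℝ (E n) (-c))).trans b.equivFun.toAffineEquiv
  have hT : ∀ x : E n, T (phi n x) = b.equivFun (-c + x) := by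
    intro x
    show b.equivFun (-c + (phi n).symm (phi n x)) = _
    rw [ContinuousLinearEquiv.symm_apply_apply]
  refine ⟨T, ?_⟩
  rintro _ ⟨_, ⟨x, hx, rfl⟩, rfl⟩ ε hε
  let w : Fin n → ℝ := fun i => ε i * T (phi n x) i
  let y : E n := c + b.equivFun.symm w
  have hy : b.equivFun (-c + y) = w := by
    show b.equivFun (-c + (c + b.equivFun.symm w)) = w
    rw [neg_add_cancel_left, LinearEquiv.apply_symm_apply]
  refine ⟨phi n y, ⟨y, h x hx y ?_, rfl⟩, ?_⟩
  · intro i
    have e1 : b.repr (y - c) i = w i := by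
      rw [← hy, sub_eq_neg_add]
      rfl
    have e2 : b.repr (x - c) i = T (phi n x) i := by
      rw [hT, sub_eq_neg_add]
      rfl
    rw [e1, e2]
    show |ε i * T (phi n x) i| = _
    rw [abs_mul]
    rcases hε i with h1 | h1 <;> rw [h1] <;> simp
  · rw [hT, hy]

private theorem chart {n : ℕ} (b : AffineBasis (Fin (n + 1)) ℝ (E n)) :
    ∃ T : (Fin n → ℝ) ≃ᵃ[ℝ] (Fin n → ℝ), ∀ (x : E n) (i : Fin n),
      T (phi n x) i = b.coord i.succ x := by
  let A : E n →ᵃ[ℝ] (Fin n → ℝ) := AffineMap.pi fun i : Fin n => b.coord i.succ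
  have hA : ∀ (x : E n) (i : Fin n), A x i = b.coord i.succ x := fun x i => rfl
  have hbij : Function.Bijective A := by
    constructor
    · intro x y hxy
      have h1 : ∀ i : Fin n, b.coord i.succ x = b.coord i.succ y := fun i => congrFun hxy i
      refine b.ext_elem fun i => ?_
      refine Fin.cases ?_ h1 i
      have hx := b.sum_coord_apply_eq_one x
      have hy := b.sum_coord_apply_eq_one y
      rw [Fin.sum_univ_succ] at hx hy
      have : ∑ i : Fin n, b.coord i.succ x = ∑ i : Fin n, b.coord i.succ y :=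
        Finset.sum_congr rfl fun i _ => h1 i
      linarith
    · intro y
      let w : Fin (n + 1) → ℝ := Fin.cons (1 - ∑ i, y i) y
      have hw : ∑ i, w i = 1 := by
        rw [Fin.sum_univ_succ]
        simp [w]
      refine ⟨Finset.univ.affineCombination ℝ b w, ?_⟩
      funext i
      rw [hA, b.coord_apply_combination_of_mem (Finset.mem_univ _) hw]
      simp [w]
  refine ⟨(phi n).symm.toLinearEquiv.toAffineEquiv.trans (AffineEquiv.ofBijective hbij), ?_⟩
  intro x i
  show A ((phi n).symm (phi n x)) i = _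
  rw [ContinuousLinearEquiv.symm_apply_apply, hA]

private theorem cv {n : ℕ} (T : (Fin n → ℝ) ≃ᵃ[ℝ] (Fin n → ℝ)) : ∃ D : ℝ, 0 < D ∧
    ∀ (A : Set (Fin n → ℝ)), MeasurableSet A → ∀ f : (Fin n → ℝ) → ℝ,
      ∫ y in T '' A, f y = D * ∫ x in A, f (T x) := by
  set A : (Fin n → ℝ) →ₗ[ℝ] (Fin n → ℝ) := (T.linear : (Fin n → ℝ) →ₗ[ℝ] (Fin n → ℝ)) with hA
  have hT : ∀ x, T x = A x + T 0 := by
    intro x
    have h := T.map_vadd 0 x
    simp only [vadd_eq_add, add_zero] at h
    exact h
  have hTf : (T : (Fin n → ℝ) → (Fin n → ℝ)) =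
      fun x => (LinearMap.toContinuousLinearMap A) x + T 0 := funext fun x => hT x
  have hD0 : LinearMap.det A ≠ 0 := (LinearEquiv.isUnit_det' T.linear).ne_zero
  refine ⟨|LinearMap.det A|, abs_pos.2 hD0, fun S hS f => ?_⟩
  have h1 := integral_image_eq_integral_abs_det_fderiv_smul
    (volume : Measure (Fin n → ℝ)) hS (f := T)
    (f' := fun _ => LinearMap.toContinuousLinearMap A) (fun x _ => by
      rw [hTf]
      exact ((LinearMap.toContinuousLinearMap A).hasFDerivAt.add_const _).hasFDerivWithinAt)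
    T.injective.injOn f
  rw [h1]
  simp only [LinearMap.det_toContinuousLinearMap, smul_eq_mul]
  rw [integral_const_mul]

/-- the criterion with respect to an arbitrary simplex -/
private theorem crit {n : ℕ} (hn : 1 ≤ n) {K : Set (E n)} (h1 : IsCompact K) (h2 : Convex ℝ K)
    (h3 : (interior K).Nonempty) (b : AffineBasis (Fin (n + 1)) ℝ (E n))
    (hsub : K ⊆ convexHull ℝ (range b))
    (hint : 2 * volume.real (convexHull ℝ (range b) \ K) ≤
      ((n : ℝ) + 1) * ∫ x in convexHull ℝ (range b) \ K, ∑ i, b.coord i x ^ 2) : Q1For K := by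
  rw [sic_phi hn]
  obtain ⟨T, hT⟩ := chart b
  obtain ⟨D, hD, hcv⟩ := cv T
  have hb := body h1 h2 h3
  have hinj : Function.Injective fun x : E n => T (phi n x) :=
    T.injective.comp (phi n).injective
  have hcorner : T '' (phi n '' convexHull ℝ (range b)) = LocalMax.cornerSimplex n := by
    rw [b.convexHull_eq_nonneg_coord]
    ext z
    constructor
    · rintro ⟨_, ⟨x, hx, rfl⟩, rfl⟩
      refine ⟨fun i => ?_, ?_⟩
      · rw [hT]
        exact hx _
      · have hs := b.sum_coord_apply_eq_one x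
        rw [Fin.sum_univ_succ] at hs
        simp only [hT]
        have := hx 0
        linarith
    · rintro ⟨hz1, hz2⟩
      obtain ⟨y, rfl⟩ := T.surjective z
      obtain ⟨x, rfl⟩ := (phi n).surjective y
      refine ⟨_, ⟨x, ?_, rfl⟩, rfl⟩
      intro i
      have hs := b.sum_coord_apply_eq_one x
      rw [Fin.sum_univ_succ] at hs
      simp only [hT] at hz1 hz2
      refine Fin.cases ?_ hz1 i
      linarith
  have hdiff : T '' (phi n '' (convexHull ℝ (range b) \ K)) =
      LocalMax.cornerSimplex n \ (T '' (phi n '' K)) := by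
    rw [image_sdiff (phi n).injective, image_sdiff T.injective, hcorner]
  have hm : MeasurableSet (phi n '' (convexHull ℝ (range b) \ K)) := by
    refine (phi_emb n).measurableSet_image.2 ?_
    refine MeasurableSet.diff ?_ h1.measurableSet
    exact ((finite_range b).isCompact_convexHull ℝ).measurableSet
  have e1 : (volume (LocalMax.cornerSimplex n \ (T '' (phi n '' K)))).toReal =
      D * volume.real (convexHull ℝ (range b) \ K) := by
    have h := hcv _ hm (fun _ => 1)
    rw [hdiff] at h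
    simp only [setIntegral_const, smul_eq_mul, mul_one] at h
    rw [measureReal_def, measureReal_def, vol_phi] at h
    exact h
  have e2 : ∫ x in LocalMax.cornerSimplex n \ (T '' (phi n '' K)), LocalMax.barySq x =
      D * ∫ x in convexHull ℝ (range b) \ K, ∑ i, b.coord i x ^ 2 := by
    rw [← hdiff, hcv _ hm, int_phi]
    congr 1
    refine integral_congr_ae (Filter.Eventually.of_forall fun x => ?_)
    show LocalMax.barySq (T (phi n x)) = _
    unfold LocalMax.barySq
    have hs := b.sum_coord_apply_eq_one x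
    rw [Fin.sum_univ_succ] at hs
    simp only [hT]
    rw [Fin.sum_univ_succ (f := fun i => b.coord i x ^ 2)]
    have : 1 - ∑ i : Fin n, b.coord i.succ x = b.coord 0 x := by linarith
    rw [this, add_comm]
  have hbT : P254U.ConvBody n (T '' (phi n '' K)) := P254U.convBody_affine hb T
  have h4 := (LocalMax.result n hn).2.1 (T '' (phi n '' K))
    ⟨hbT.compact, hbT.convex, hbT.interior_nonempty⟩
    (by
      rw [← hcorner]
      exact image_mono (image_mono hsub)) (by
      rw [e1, e2]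
      nlinarith [mul_le_mul_of_nonneg_left hint hD.le]) T.symm
  rw [LocalMax.sat_iff, image_image] at h4
  simpa using h4

private theorem phi_left {m k : ℕ} (z : E (m + k)) :
    phi m (left z) = fun i : Fin m => phi (m + k) z (Fin.castAdd k i) := rfl

private theorem phi_right {m k : ℕ} (z : E (m + k)) :
    phi k (right z) = fun j : Fin k => phi (m + k) z (Fin.natAdd m j) := rfl

private theorem mem_phi {n : ℕ} {K : Set (E n)} {x : E n} : phi n x ∈ phi n '' K ↔ x ∈ K :=
  (phi n).injective.mem_set_image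

private theorem phi_product {m k : ℕ} (K : Set (E m)) (L : Set (E k)) :
    phi (m + k) '' product K L = P254U.prodSet (phi m '' K) (phi k '' L) := by
  ext w
  obtain ⟨z, rfl⟩ := (phi (m + k)).surjective w
  rw [mem_phi]
  show _ ↔ (fun i : Fin m => phi (m + k) z (Fin.castAdd k i)) ∈ phi m '' K ∧
    (fun j : Fin k => phi (m + k) z (Fin.natAdd m j)) ∈ phi k '' L
  rw [← phi_left, ← phi_right, mem_phi, mem_phi]
  rfl

private theorem phi_freeSum {m k : ℕ} (K : Set (E m)) (L : Set (E k)) :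
    phi (m + k) '' freeSum K L = P254U.fsum (phi m '' K) (phi k '' L) := by
  unfold freeSum P254U.fsum
  rw [image_hull, image_union, phi_product, phi_product, image_singleton, image_singleton,
    map_zero, map_zero]
  congr 2
  · ext w
    constructor
    · rintro ⟨h1, h2⟩
      refine ⟨_, h1, ?_⟩
      have h3 : (fun j : Fin k => w (Fin.natAdd m j)) = 0 := h2
      have h4 := P254U.append_parts w
      rw [h3] at h4
      exact h4
    · rintro ⟨a, ha, rfl⟩
      refine ⟨?_, ?_⟩
      · convert ha using 1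
        funext i
        simp
      · show _ = _
        funext j
        simp
  · ext w
    constructor
    · rintro ⟨h1, h2⟩
      refine ⟨_, h2, ?_⟩
      have h3 : (fun i : Fin m => w (Fin.castAdd k i)) = 0 := h1
      have h4 := P254U.append_parts w
      rw [h3] at h4
      exact h4
    · rintro ⟨a, ha, rfl⟩
      refine ⟨?_, ?_⟩
      · show _ = _
        funext j
        simp
      · convert ha using 1
        funext i
        simp

private theorem toBody {n : ℕ} {K' : Set (Fin n → ℝ)} (h : P254U.ConvBody n K') :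
    ∃ K : Body n, phi n '' K.set = K' := by
  have hc : Convex ℝ ((phi n).symm '' K') :=
    h.convex.linear_image ((phi n).symm.toLinearEquiv : (Fin n → ℝ) →ₗ[ℝ] E n)
  refine ⟨⟨(phi n).symm '' K', h.compact.image (phi n).symm.continuous, hc, ?_⟩, ?_⟩
  · obtain ⟨x, hx⟩ := h.interior_nonempty
    have h5 : (phi n).symm '' interior K' = interior ((phi n).symm '' K') :=
      (phi n).symm.toHomeomorph.image_interior K'
    refine ⟨(phi n).symm x, ?_⟩
    have h4 : (phi n).symm x ∈ (phi n).symm '' interior K' := ⟨x, hx, rfl⟩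
    rwa [h5] at h4
  · show phi n '' ((phi n).symm '' K') = K'
    rw [image_image]
    simp

private theorem bodyOf {n : ℕ} (K : Body n) : P254U.ConvBody n (phi n '' K.set) :=
  body K.isCompact K.convex K.interior_nonempty

private theorem simplex_value {n : ℕ} (hn : 1 ≤ n) {D : Set (E n)} (hD : IsSimplex D) :
    isoConst D = simplexConst n := by
  obtain ⟨v, hv, h⟩ := (simp_phi D).1 hD
  rw [iso_phi, h]
  exact P254U.isoConst_simplex n hn hv

private theorem points {n : ℕ} (hn : 1 ≤ n) (s : Finset (E n)) (hs : s.card ≤ n + 2)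
    (hi : (interior (convexHull ℝ (s : Set (E n)))).Nonempty) :
    Q1For (convexHull ℝ (s : Set (E n))) := by
  have hne : s.Nonempty := by
    by_contra h
    rw [Finset.not_nonempty_iff_eq_empty] at h
    subst h
    simp at hi
  obtain ⟨x0, hx0⟩ := hne
  let v : Fin (n + 2) → E n := fun i =>
    if h : (i : ℕ) < s.card then (s.equivFin.symm ⟨i, h⟩ : E n) else x0
  have hv : range v = (s : Set (E n)) := by
    ext z
    constructor
    · rintro ⟨i, rfl⟩
      show v i ∈ s
      by_cases h : (i : ℕ) < s.card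
      · simp only [v, h, dif_pos]
        exact (s.equivFin.symm ⟨i, h⟩).2
      · simp only [v, h, dif_neg, not_false_iff]
        exact hx0
    · intro hz
      have hz' : z ∈ s := hz
      have hlt : ((s.equivFin ⟨z, hz'⟩ : Fin s.card) : ℕ) < n + 2 :=
        lt_of_lt_of_le (s.equivFin ⟨z, hz'⟩).2 hs
      refine ⟨⟨s.equivFin ⟨z, hz'⟩, hlt⟩, ?_⟩
      simp [v]
  rw [sic_phi hn]
  have e : phi n '' convexHull ℝ (s : Set (E n)) = convexHull ℝ (range (phi n ∘ v)) := by
    rw [image_hull, ← hv, range_comp]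
  have hb := body (s.finite_toSet.isCompact_convexHull ℝ) (convex_convexHull ℝ (s : Set (E n))) hi
  rw [e] at hb ⊢
  exact P254U.sic_points hn _ hb.interior_nonempty

private theorem crit2 {n : ℕ} (hn : 1 ≤ n) {K : Set (E n)} (h1 : IsCompact K) (h2 : Convex ℝ K)
    (h3 : (interior K).Nonempty) (b : AffineBasis (Fin (n + 1)) ℝ (E n))
    (hsub : K ⊆ convexHull ℝ (range b))
    (hq : ∀ x ∈ convexHull ℝ (range b), ∑ i, b.coord i x ^ 2 ≤ 2 / ((n : ℝ) + 1) → x ∈ K) :
    Q1For K := by
  refine crit hn h1 h2 h3 b hsub ?_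
  have hn' : (0 : ℝ) < (n : ℝ) + 1 := by positivity
  have hS : IsCompact (convexHull ℝ (range b)) := (finite_range b).isCompact_convexHull ℝ
  have hcont : Continuous (fun x : E n => ∑ i, b.coord i x ^ 2) := by
    refine continuous_finsetSum _ fun i _ => ?_
    exact (b.coord i).continuous_of_finiteDimensional.pow 2
  have hQi : IntegrableOn (fun x : E n => ∑ i, b.coord i x ^ 2) (convexHull ℝ (range b) \ K) :=
    (hcont.continuousOn.integrableOn_compact hS).mono_set sdiff_subset
  have hfin : volume (convexHull ℝ (range b) \ K) ≠ ⊤ :=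
    ((measure_mono sdiff_subset).trans_lt hS.measure_lt_top).ne
  have hm : MeasurableSet (convexHull ℝ (range b) \ K) := hS.measurableSet.diff h1.measurableSet
  have h4 : ∫ x in convexHull ℝ (range b) \ K, (2 / ((n : ℝ) + 1)) ≤
      ∫ x in convexHull ℝ (range b) \ K, ∑ i, b.coord i x ^ 2 := by
    refine setIntegral_mono_on (integrableOn_const hfin) hQi hm fun x hx => ?_
    by_contra hlt
    exact hx.2 (hq x hx.1 (not_le.1 hlt).le)
  rw [setIntegral_const, smul_eq_mul] at h4
  have h5 := mul_le_mul_of_nonneg_left h4 hn'.le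
  have h6 : ((n : ℝ) + 1) * (volume.real (convexHull ℝ (range b) \ K) * (2 / ((n : ℝ) + 1))) =
      2 * volume.real (convexHull ℝ (range b) \ K) := by
    field_simp
  linarith

private theorem lp_norm {n : ℕ} {Ω : Type} [MeasurableSpace Ω] (μ : Measure Ω) {p : ℝ} (hp : 0 < p)
    {q : ENNReal} (hq : q = ENNReal.ofReal p) {f : Fin n → Ω → ℝ} (hf : ∀ i, MemLp (f i) q μ) :
    ∃ g : Ω → (Fin n → ℝ), Measurable g ∧
      ∀ x, P254U.PhiP μ g p x ≤ 1 ↔ eLpNorm (fun ω => ∑ i, x i * f i ω) q μ ≤ 1 := by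
  let g : Ω → (Fin n → ℝ) := fun ω i => (hf i).1.mk (f i) ω
  have hq0 : q ≠ 0 := by
    rw [hq]
    exact (ENNReal.ofReal_pos.2 hp).ne'
  have hqt : q ≠ ⊤ := by
    rw [hq]
    exact ENNReal.ofReal_ne_top
  have hqr : q.toReal = p := by
    rw [hq, ENNReal.toReal_ofReal hp.le]
  refine ⟨g, measurable_pi_iff.2 fun i => (hf i).1.stronglyMeasurable_mk.measurable, fun x => ?_⟩
  have h2 : ∀ᵐ ω ∂μ, ∀ i, f i ω = g ω i := by
    rw [ae_all_iff]
    intro i
    exact (hf i).1.ae_eq_mk
  have h5 : eLpNorm (fun ω => ∑ i, x i * f i ω) q μ ^ p = P254U.PhiP μ g p x := by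
    rw [eLpNorm_eq_lintegral_rpow_enorm_toReal hq0 hqt, hqr, ← ENNReal.rpow_mul,
      one_div_mul_cancel hp.ne', ENNReal.rpow_one]
    unfold P254U.PhiP
    refine lintegral_congr_ae ?_
    filter_upwards [h2] with ω hω
    rw [Real.enorm_eq_ofReal_abs, ENNReal.ofReal_rpow_of_nonneg (abs_nonneg _) hp.le]
    simp only [hω]
  have h6 : eLpNorm (fun ω => ∑ i, x i * f i ω) q μ ^ p ≤ 1 ^ p ↔
      eLpNorm (fun ω => ∑ i, x i * f i ω) q μ ≤ 1 := ENNReal.rpow_le_rpow_iff hp
  rw [← h5, ← h6, ENNReal.one_rpow]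

private theorem elp_smul {n : ℕ} {Ω : Type} [MeasurableSpace Ω] (μ : Measure Ω) (q : ENNReal)
    (f : Fin n → Ω → ℝ) (c : ℝ) (x : Fin n → ℝ) :
    eLpNorm (fun ω => ∑ i, (c • x) i * f i ω) q μ =
      ‖c‖ₑ * eLpNorm (fun ω => ∑ i, x i * f i ω) q μ := by
  rw [← eLpNorm_const_smul]
  congr 1
  funext ω
  simp only [Pi.smul_apply, smul_eq_mul, Finset.mul_sum, mul_assoc]

private theorem lt_of_rat {n : ℕ} (hn : 1 ≤ n) {K : Set (E n)} (hK : P254U.ConvBody n (phi n '' K))
    (h : P254U.Rat (phi n '' K) < 1) : isoConst K < simplexConst n := by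
  obtain ⟨b⟩ : Nonempty (AffineBasis (Fin (n + 1)) ℝ (Fin n → ℝ)) :=
    AffineBasis.exists_affineBasis_of_finiteDimensional (by simp)
  have hs : P254U.isoConst (convexHull ℝ (range b)) = simplexConst n :=
    P254U.isoConst_simplex n hn b.ind
  rw [iso_phi, ← hs]
  refine lt_of_le_of_ne ((P254U.isoConst_le_iff hn hK b.ind).2 h.le) fun h3 => ?_
  exact absurd ((P254U.isoConst_eq_iff hn hK b.ind).1 h3) h.ne

private theorem q1_of_lt {n : ℕ} {K : Set (E n)} (h : isoConst K < simplexConst n) : Q1For K :=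
  ⟨h.le, fun h3 => absurd h3 h.ne⟩

private theorem phi_image {n : ℕ} (K : Set (E n)) : phi n '' K = K := by
  show (fun x => x) '' K = K
  exact image_id' K

private theorem near_l1 {n : ℕ} (hn : 1 ≤ n) {K : Set (E n)} (hK : P254U.ConvBody n (phi n '' K))
    (h : IsNearL1Ball K) : isoConst K < simplexConst n := by
  refine lt_of_rat hn hK ?_
  rw [phi_image] at hK ⊢
  obtain ⟨hs, c, B, hc, hnum, ⟨Ω, mΩ, μ, hμ, f, hf, rfl⟩, hKB, hBK⟩ := h
  obtain ⟨g, hg, hle⟩ := lp_norm μ one_pos (by simp) hf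
  refine P254U.rat_l1 hn hK hs μ hg hc (fun x hx => (hle x).2 (hKB hx)) (fun x hx => ?_) hnum
  by_contra hlt
  refine hx ?_
  have hc0 : 0 < c := by linarith
  have h1 : ENNReal.ofReal c * P254U.PhiP μ g 1 x ≤ 1 := (not_le.1 hlt).le
  have h4 : P254U.PhiP μ g 1 (c • x) = ENNReal.ofReal c * P254U.PhiP μ g 1 x := by
    unfold P254U.PhiP
    rw [← lintegral_const_mul' _ _ ENNReal.ofReal_ne_top]
    refine lintegral_congr fun ω => ?_
    rw [Real.rpow_one, Real.rpow_one, ← ENNReal.ofReal_mul hc0.le]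
    congr 1
    have e : ∑ i, (c • x) i * g ω i = c * ∑ i, x i * g ω i := by
      simp only [Pi.smul_apply, smul_eq_mul, Finset.mul_sum, mul_assoc]
    rw [e, abs_mul, abs_of_pos hc0]
  have h3 := hBK (c • x) ((hle _).1 (h4.trans_le h1))
  rwa [smul_smul, inv_mul_cancel₀ hc0.ne', one_smul] at h3

private theorem l1_ball {n : ℕ} (hn : 3 ≤ n) {K : Set (E n)} (hK : P254U.ConvBody n (phi n '' K))
    (h : IsLpBall 1 K) : isoConst K < simplexConst n := by
  refine near_l1 (by omega) hK ⟨?_, 1, K, le_rfl, ?_, h, subset_rfl, fun x hx => ?_⟩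
  · obtain ⟨Ω, mΩ, μ, hμ, f, hf, rfl⟩ := h
    intro x hx
    show eLpNorm (fun ω => ∑ i, (-x) i * f i ω) 1 μ ≤ 1
    have h1 := elp_smul μ 1 f (-1) x
    rw [neg_one_smul] at h1
    rw [h1]
    simpa using hx
  · rw [one_pow, one_mul]
    exact P254U.num_a hn
  · rw [inv_one, one_smul]
    exact hx

private theorem near_lp {n : ℕ} (hn : 3 ≤ n) {K : Set (E n)} (hK : P254U.ConvBody n (phi n '' K))
    (h : IsNearLpBall K) : isoConst K < simplexConst n := by
  refine lt_of_rat (by omega) hK ?_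
  rw [phi_image] at hK ⊢
  obtain ⟨hs, p, B, h2, h10, ⟨Ω, mΩ, μ, hμ, f, hf, rfl⟩, hKB, hBK⟩ := h
  have hp : 0 < p := by linarith
  obtain ⟨g, hg, hle⟩ := lp_norm μ hp rfl hf
  refine P254U.rat_lp10 hn hK hs μ hg h2 h10 (d := 51 / 50) (by norm_num) le_rfl
    (fun x hx => (hle x).2 (hKB hx)) (fun x hx => ?_)
  by_contra hlt
  refine hx ?_
  have h1 : ENNReal.ofReal ((51 / 50) ^ p) * P254U.PhiP μ g p x ≤ 1 := (not_le.1 hlt).le
  have h4 : P254U.PhiP μ g p ((51 / 50 : ℝ) • x) =
      ENNReal.ofReal ((51 / 50) ^ p) * P254U.PhiP μ g p x := by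
    unfold P254U.PhiP
    rw [← lintegral_const_mul' _ _ ENNReal.ofReal_ne_top]
    refine lintegral_congr fun ω => ?_
    have e : ∑ i, ((51 / 50 : ℝ) • x) i * g ω i = (51 / 50) * ∑ i, x i * g ω i := by
      simp only [Pi.smul_apply, smul_eq_mul, Finset.mul_sum, mul_assoc]
    rw [e, abs_mul, abs_of_pos (by norm_num : (0 : ℝ) < 51 / 50),
      Real.mul_rpow (by norm_num) (abs_nonneg _), ENNReal.ofReal_mul (by positivity)]
  have h3 := hBK ((51 / 50 : ℝ) • x) ((hle _).1 (h4.trans_le h1))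
  rwa [smul_smul, (by norm_num : (50 / 51 : ℝ) * (51 / 50) = 1), one_smul] at h3

private theorem fills {n : ℕ} (hn : 1 ≤ n) {K : Set (E n)} (hK : P254U.ConvBody n (phi n '' K))
    (h : FillsEllipsoid K) : isoConst K < simplexConst n := by
  refine lt_of_rat hn hK ?_
  rw [phi_image] at hK ⊢
  obtain ⟨A, c, hc, hB, hV⟩ := h
  let T : (Fin n → ℝ) ≃ᵃ[ℝ] (Fin n → ℝ) :=
    (AffineEquiv.constVAdd ℝ (Fin n → ℝ) (-c)).trans A.toAffineEquiv
  have hT : (fun x => A (x - c)) = T := by
    funext x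
    show _ = A (-c + x)
    rw [sub_eq_neg_add]
  rw [hT] at hV
  obtain ⟨hTK, hR⟩ := P254U.Rat_affine hn hK T
  have h1 : (0 : Fin n → ℝ) ∈ T '' K := by
    refine ⟨c, hc, ?_⟩
    show A (-c + c) = 0
    simp
  have h2 : T '' K ⊆ {x | ∑ i, x i ^ 2 ≤ 1} := by
    rintro _ ⟨x, hx, rfl⟩
    have := hB x hx
    show ∑ i, (A (-c + x)) i ^ 2 ≤ 1
    rwa [sub_eq_neg_add] at this
  have h3 := P254U.rat_lt_of_ball hn hTK h1 h2 hV
  rwa [hR] at h3

private theorem ratio_pow {n : ℕ} (hn : 1 ≤ n) {K : Set (E n)}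
    (hK : P254U.ConvBody n (phi n '' K)) : 0 ≤ isoConst K / simplexConst n ∧
      ((isoConst K / simplexConst n) ^ n) ^ 2 = P254U.Rat (phi n '' K) := by
  have ha := P254U.RatSum_pos n
  have hR := P254U.Rat_pos hK
  have hn' : (0 : ℝ) < n := by exact_mod_cast hn
  have h2 : isoConst K / simplexConst n = P254U.Rat (phi n '' K) ^ (1 / (2 * (n : ℝ))) := by
    rw [iso_phi, P254U.RatSum_iso hK]
    unfold simplexConst
    rw [Real.mul_rpow hR.le ha.le, mul_div_assoc, div_self (Real.rpow_pos_of_pos ha _).ne', mul_one]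
  refine ⟨by rw [h2]; positivity, ?_⟩
  rw [h2, ← pow_mul, ← Real.rpow_natCast, ← Real.rpow_mul hR.le]
  have : 1 / (2 * (n : ℝ)) * ((n * 2 : ℕ) : ℝ) = 1 := by
    push_cast
    field_simp
  rw [this, Real.rpow_one]

private theorem revol_of {n : ℕ} (hn : 1 ≤ n) {L : Set (E n)} {K : Set (E (n + 1))}
    (hL : P254U.ConvBody n L) (hK : P254U.ConvBody (n + 1) K)
    (h : IsStackedOver L K) : P254U.Rat K ≤ P254U.Rat L := by
  obtain ⟨hc, a, b, ρ, hab, hcont, hconc, hnn, hKe⟩ := h
  have hR : P254U.Revol K L ρ a b := by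
    refine ⟨hn, hK, hL, fun i => ?_, hab, hcont, hconc, hnn, fun t y => ?_⟩
    · unfold P254U.cen
      rw [hc i, zero_div]
    · rw [hKe]
      show (t ∈ Icc a b ∧ ∃ z ∈ L, ∀ i : Fin n, y i = ρ t * z i) ↔ _
      refine and_congr_right fun _ => exists_congr fun z => and_congr_right fun _ => ?_
      constructor
      · intro h
        funext i
        exact h i
      · rintro rfl i
        rfl
  exact P254U.revol_le hR

/-- The main result; see the claim file. -/
theorem result :
    -- (0) every simplex has isotropic constant `simplexConst n`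
    (∀ n : ℕ, 1 ≤ n → ∀ D : Set (Fin n → ℝ), IsSimplex D → isoConst D = simplexConst n) ∧
    -- (1) Q1 for all bodies of seven classes, in every dimension
    (∀ n : ℕ, 1 ≤ n → ∀ K : Body n,
      IsUnconditional K.set ∨ IsNearL1Ball K.set ∨ FillsEllipsoid K.set ∨ HasFewVertices K.set ∨
        IsNearSimplex K.set ∨ IsCutSimplex K.set ∨ ContainsCore K.set → Q1For K.set) ∧
    -- (2) Q1 with strict inequality: centrally symmetric and nearly symmetric bodies in `ℝ³`, unit
    -- balls of complex norms on `ℂ²` and `ℂ³`, unconditional bodies, unit balls of `n`-dimensional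
    -- subspaces of `L_1`, and bodies near those of `L_p`, `2 ≤ p ≤ 10`
    (∀ (n : ℕ) (K : Body n),
      (n = 3 ∧ (IsCentrallySymmetric K.set ∨ IsNearlySymmetric K.set)) ∨
        ((n = 4 ∨ n = 6) ∧ IsComplexBall K.set) ∨
        (2 ≤ n ∧ IsUnconditional K.set) ∨ (3 ≤ n ∧ IsLpBall 1 K.set) ∨
        (3 ≤ n ∧ IsNearLpBall K.set) →
      isoConst K.set < simplexConst n) ∧
    -- (3) Q1 is inherited by affine images
    (∀ n : ℕ, 1 ≤ n → ∀ (K : Body n) (M : Set (Fin n → ℝ)),
      Q1For K.set → IsAffineImage K.set M → Q1For M) ∧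
    -- (4) Q1 is inherited by products, and by free sums of bodies containing the origin
    (∀ m k : ℕ, 1 ≤ m → 1 ≤ k → ∀ (K : Body m) (L : Body k), Q1For K.set → Q1For L.set →
      Q1For (product K.set L.set) ∧
        (0 ∈ K.set → 0 ∈ L.set → Q1For (freeSum K.set L.set))) ∧
    -- (5) the inequality in dimension `n + 1` implies the inequality in dimension `n`
    (∀ n : ℕ, 1 ≤ n → (∀ K : Body (n + 1), isoConst K.set ≤ simplexConst (n + 1)) →
      ∀ K : Body n, isoConst K.set ≤ simplexConst n) ∧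
    -- (6) the inequality in all dimensions is equivalent to the asymptotic bound `1/e`
    ((∀ n : ℕ, 1 ≤ n → ∀ K : Body n, isoConst K.set ≤ simplexConst n) ↔
      ∀ ε : ℝ, 0 < ε → ∃ᶠ d : ℕ in Filter.atTop, ∀ K : Body d,
        isoConst K.set ≤ Real.exp (-1) + ε) ∧
    -- (7) bodies stacked over `L`
    (∀ n : ℕ, 1 ≤ n → ∀ (L : Body n) (K : Body (n + 1)), IsStackedOver L.set K.set →
      (isoConst K.set / simplexConst (n + 1)) ^ (n + 1) ≤ (isoConst L.set / simplexConst n) ^ n) ∧
    -- (8) bodies of revolution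
    (∀ n : ℕ, 2 ≤ n → ∀ K : Body (n + 1), IsStackedOver {y : Fin n → ℝ | ∑ i, y i ^ 2 ≤ 1} K.set →
      isoConst K.set < simplexConst (n + 1)) := by
  have strict : ∀ n : ℕ, 2 ≤ n → ∀ K : Body n, IsUnconditional K.set →
      isoConst K.set < simplexConst n := by
    intro n h2 K hu
    obtain ⟨b⟩ : Nonempty (AffineBasis (Fin (n + 1)) ℝ (Fin n → ℝ)) :=
      AffineBasis.exists_affineBasis_of_finiteDimensional (by simp)
    have h := P254U.iso_lt_of_two_le h2 (bodyOf K) (uncond_phi hu) b.ind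
    rw [← iso_phi, P254U.isoConst_simplex n (by omega) b.ind] at h
    exact h
  refine ⟨fun n hn D hD => simplex_value hn hD, ?_, ?_, ?_, ?_, ?_, ?_, ?_, ?_⟩
  · rintro n hn K (hu | hl | hf | ⟨s, hs, hK⟩ | ⟨b, b', h1, h2, h3⟩ | ⟨b, hsub, hint⟩ |
      ⟨b, hsub, hq⟩)
    · have hb := bodyOf K
      have hs := (Inheritance.result).1 n hn _ ⟨hb.compact, hb.convex, hb.interior_nonempty⟩
        (uncond_phi hu)
      exact (sic_phi hn _).2 (Inheritance.sat_iff.1 hs)
    · exact q1_of_lt (near_l1 hn (bodyOf K) hl)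
    · exact q1_of_lt (fills hn (bodyOf K) hf)
    · have hi := K.interior_nonempty
      rw [hK] at hi ⊢
      exact points hn s hs hi
    · have hs' := (simp_phi _).1 (⟨b, rfl⟩ : IsSimplex (hull b))
      have ht' := (simp_phi _).1 (⟨b', rfl⟩ : IsSimplex (hull b'))
      have hb := bodyOf K
      rw [sic_phi hn, ← LocalMax.sat_iff]
      refine (LocalMax.result n hn).1 _ _ _ ⟨hb.compact, hb.convex, hb.interior_nonempty⟩
        hs' ht' (image_mono h1) (image_mono h2) ?_
      rw [vol_phi, vol_phi]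
      exact h3
    · exact crit hn K.isCompact K.convex K.interior_nonempty b hsub hint
    · exact crit2 hn K.isCompact K.convex K.interior_nonempty b hsub hq
  · rintro n K (⟨rfl, ⟨c, hc⟩ | ⟨c, hc⟩⟩ | ⟨h46, J, hJ, hinv⟩ | ⟨h2, hu⟩ | ⟨h3, hl⟩ | ⟨h3, hl⟩)
    · refine lt_of_rat (by norm_num) (bodyOf K) ?_
      have hb := bodyOf K
      rw [phi_image] at hb ⊢
      exact P254U.rat_centsym3 hb c hc
    · refine lt_of_rat (by norm_num) (bodyOf K) ?_
      have hb := bodyOf K
      rw [phi_image] at hb ⊢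
      exact P254U.rat_asym3 hb c hc
    · rcases h46 with rfl | rfl
      · refine lt_of_rat (by norm_num) (bodyOf K) ?_
        have hb := bodyOf K
        rw [phi_image] at hb ⊢
        exact P254U.rat_complex4 hb hJ hinv
      · refine lt_of_rat (by norm_num) (bodyOf K) ?_
        have hb := bodyOf K
        rw [phi_image] at hb ⊢
        exact P254U.rat_complex6 hb hJ hinv
    · exact strict n h2 K hu
    · exact l1_ball h3 (bodyOf K) hl
    · exact near_lp h3 (bodyOf K) hl
  · rintro n hn K _ hs ⟨A, c, rfl⟩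
    let T : E n ≃ᵃ[ℝ] E n := A.toAffineEquiv.trans (AffineEquiv.constVAdd ℝ (E n) c)
    have hT : (fun x => A x + c) = T := by
      funext x
      show _ = c + A x
      rw [add_comm]
    rw [hT]
    rw [sic_phi hn] at hs ⊢
    let T' : (Fin n → ℝ) ≃ᵃ[ℝ] (Fin n → ℝ) :=
      ((phi n).symm.toLinearEquiv.toAffineEquiv.trans T).trans
        (phi n).toLinearEquiv.toAffineEquiv
    have hT' : phi n '' (T '' K.set) = T' '' (phi n '' K.set) := by
      rw [image_image, image_image]
      refine image_congr fun x _ => ?_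
      show _ = phi n (T ((phi n).symm (phi n x)))
      rw [ContinuousLinearEquiv.symm_apply_apply]
    rw [hT']
    exact P254U.sic_affine (K.isCompact.image (phi n).continuous) hs T'
  · intro m k hm hk K L h1 h2
    have hmk : 1 ≤ m + k := by omega
    have hbK := bodyOf K
    have hbL := bodyOf L
    rw [sic_phi hm] at h1
    rw [sic_phi hk] at h2
    refine ⟨?_, fun h0 h0' => ?_⟩
    · rw [sic_phi hmk, phi_product]
      exact P254U.sic_prod hm hk hbK hbL h1 h2
    · rw [sic_phi hmk, phi_freeSum]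
      exact P254U.sic_fsum hm hk hbK hbL ⟨0, h0, map_zero _⟩ ⟨0, h0', map_zero _⟩ h1 h2
  · intro n hn h K
    have hK := bodyOf K
    obtain ⟨C, hC, -, hR, -⟩ := P254U.exists_cone hn hK
    obtain ⟨C', rfl⟩ := toBody hC
    obtain ⟨b⟩ : Nonempty (AffineBasis (Fin (n + 1 + 1)) ℝ (Fin (n + 1) → ℝ)) :=
      AffineBasis.exists_affineBasis_of_finiteDimensional (by simp)
    obtain ⟨b'⟩ : Nonempty (AffineBasis (Fin (n + 1)) ℝ (Fin n → ℝ)) :=
      AffineBasis.exists_affineBasis_of_finiteDimensional (by simp)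
    have h1 := h C'
    have h2 : P254U.isoConst (convexHull ℝ (range b)) = simplexConst (n + 1) :=
      P254U.isoConst_simplex (n + 1) (by omega) b.ind
    have h3 : P254U.isoConst (convexHull ℝ (range b')) = simplexConst n :=
      P254U.isoConst_simplex n hn b'.ind
    rw [iso_phi, ← h2, P254U.isoConst_le_iff (by omega) hC b.ind, hR] at h1
    rw [iso_phi, ← h3]
    exact (P254U.isoConst_le_iff hn hK b'.ind).2 h1
  · have key := (Inheritance.result).2.2.2.2.2
    have e1 : (∀ n : ℕ, 1 ≤ n → ∀ K : Body n, isoConst K.set ≤ simplexConst n) ↔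
        (∀ (n : ℕ), 1 ≤ n → ∀ K D : Set (Fin n → ℝ), Inheritance.IsConvexBody K →
          Inheritance.IsSimplex D →
          Inheritance.isotropicConstant K ≤ Inheritance.isotropicConstant D) := by
      constructor
      · rintro h n hn K' D hK' ⟨v, hv, rfl⟩
        obtain ⟨K, rfl⟩ := toBody (Inheritance.body hK')
        have h6 := h n hn K
        rw [iso_phi] at h6
        have h7 : P254U.isoConst (convexHull ℝ (range v)) = simplexConst n :=
          P254U.isoConst_simplex n hn hv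
        exact h6.trans h7.ge
      · intro h n hn K
        have hb := bodyOf K
        obtain ⟨b⟩ : Nonempty (AffineBasis (Fin (n + 1)) ℝ (Fin n → ℝ)) :=
          AffineBasis.exists_affineBasis_of_finiteDimensional (by simp)
        have h6 := h n hn _ _ ⟨hb.compact, hb.convex, hb.interior_nonempty⟩ ⟨b, b.ind, rfl⟩
        rw [iso_phi]
        refine h6.trans (le_of_eq ?_)
        exact P254U.isoConst_simplex n hn b.ind
    rw [e1, key]
    refine forall_congr' fun ε => imp_congr_right fun _ => ?_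
    rw [Filter.frequently_atTop]
    refine forall_congr' fun N => exists_congr fun d => and_congr_right fun _ => ?_
    constructor
    · intro h K
      have hb := bodyOf K
      rw [iso_phi]
      exact h _ ⟨hb.compact, hb.convex, hb.interior_nonempty⟩
    · intro h K' hK'
      obtain ⟨K, rfl⟩ := toBody (Inheritance.body hK')
      have h6 := h K
      rw [iso_phi] at h6
      exact h6
  · intro n hn L K h
    obtain ⟨hK0, hK2⟩ := ratio_pow (by omega : 1 ≤ n + 1) (bodyOf K)
    obtain ⟨hL0, hL2⟩ := ratio_pow hn (bodyOf L)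
    have hbL := bodyOf L
    have hbK := bodyOf K
    rw [phi_image] at hbL hbK hK2 hL2
    have h1 := revol_of hn hbL hbK h
    rw [← hK2, ← hL2] at h1
    exact (pow_le_pow_iff_left₀ (pow_nonneg hK0 _) (pow_nonneg hL0 _) two_ne_zero).1 h1
  · intro n hn K h
    refine lt_of_rat (by omega) (bodyOf K) ?_
    have hbK := bodyOf K
    rw [phi_image] at hbK ⊢
    exact (revol_of (by omega) (P254U.eball_body (by omega)) hbK h).trans_lt
      (P254U.rat_eball_lt hn)

end Vale.Agent.Results.P254.StrongConstant
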